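import Vale.Agent.P093.EN.Main

/-!
# P093, part N, block EN: the quotient `𝔽_p[b] / (h_n) = 𝔽_p[t]`

* `sub_tpart_mem` : every `z : 𝔽_p[b]` is congruent to a polynomial in the `t_k` modulo the `h_n`;
* `ker_eq` : the kernel of a homomorphism to a polynomial ring which kills the `h_n` and maps the
  `t_k` to different variables is the ideal of the `h_n`.
-/

open MvPolynomial

namespace Vale.Agent.P093.EN

open Vale.Agent.P251.F Vale.Agent.P217

variable {p : ℕ} [hp : Fact p.Prime]

/-- the class of `z` modulo the `h_n`, as a polynomial in the `t_k` -/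
noncomputable def tpart : Bp p →ₗ[ZMod p] ((Unit × Mt p) →₀ ZMod p) :=
  Finsupp.lapply 0 ∘ₗ (eqv Unit).symm.toLinearMap ∘ₗ Finsupp.lsingle ()

/-- the polynomial in the `t_k` with given coefficients -/
noncomputable def tpoly : ((Unit × Mt p) →₀ ZMod p) →ₗ[ZMod p] Bp p :=
  Finsupp.lsum (ZMod p) fun c => MvPolynomial.monomial (ext0 _ c.2)

@[simp] theorem tpoly_single (c : Unit × Mt p) (r : ZMod p) :
    tpoly (Finsupp.single c r) = monomial (ext0 _ c.2) r := by
  rw [tpoly, Finsupp.lsum_single]

theorem θ_tpoly (x : (Unit × Mt p) →₀ ZMod p) : θ p (tpoly x) = tpoly x := by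
  induction x using Finsupp.induction_linear with
  | zero => simp
  | add x y hx hy => rw [map_add, map_add, hx, hy]
  | single c r =>
    rw [tpoly_single, θ, MvPolynomial.aeval_monomial, MvPolynomial.monomial_eq,
      MvPolynomial.algebraMap_eq]
    congr 1
    refine Finsupp.prod_congr fun n hn => ?_
    have h1 : IsT p n := by
      by_contra h1
      exact Finsupp.mem_support_iff.1 hn (ext0_apply_not _ h1)
    rw [gen, if_pos h1]

theorem eqv_single_zero (x : (Unit × Mt p) →₀ ZMod p) :
    eqv Unit (Finsupp.single 0 x) = Finsupp.single () (tpoly x) := by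
  induction x using Finsupp.induction_linear with
  | zero => simp
  | add x y hx hy => rw [Finsupp.single_add, map_add, hx, hy, map_add, Finsupp.single_add]
  | single c r =>
    obtain ⟨⟨⟩, c⟩ := c
    rw [eqv_single, ← θ_tpoly, tpoly_single]
    have h1 : join p (0, c) = ext0 _ c := by
      change ext0 _ 0 + ext0 _ c = ext0 _ c
      rw [map_zero, zero_add]
    rw [h1]

theorem sub_tpart_mem (z : Bp p) : z - tpoly (tpart z) ∈ Jh p := by
  classical
  have h1 := eqv_mem_J (V := Unit)
    (x := (eqv Unit).symm (Finsupp.single () z) - Finsupp.single 0 (tpart z)) (by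
      rw [Finsupp.sub_apply, Finsupp.single_eq_same]
      exact sub_self _) ()
  rw [_root_.map_sub (eqv Unit), LinearEquiv.apply_symm_apply, eqv_single_zero,
    Finsupp.sub_apply, Finsupp.single_eq_same, Finsupp.single_eq_same] at h1
  exact h1

theorem tpart_eq_zero {z : Bp p} (hz : z ∈ Jh p) : tpart z = 0 := by
  refine eqv_symm_zero (V := Unit) fun v => ?_
  change (Finsupp.single () z : Unit →₀ Bp p) v ∈ Jh p
  obtain rfl : v = () := rfl
  rw [Finsupp.single_eq_same]
  exact hz

theorem tpoly_tpart_tpoly (x : (Unit × Mt p) →₀ ZMod p) : tpart (tpoly x) = x := by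
  change ((eqv Unit).symm (Finsupp.single () (tpoly x))) 0 = x
  rw [← eqv_single_zero, LinearEquiv.symm_apply_apply, Finsupp.single_eq_same]

/-- the polynomial in the `t_k` with given coefficients, in the polynomial ring on the `t_k` -/
noncomputable def tp : ((Unit × Mt p) →₀ ZMod p) →ₗ[ZMod p] MvPolynomial (τI p) (ZMod p) :=
  Finsupp.lsum (ZMod p) fun c => MvPolynomial.monomial c.2

@[simp] theorem tp_single (c : Unit × Mt p) (r : ZMod p) :
    tp (Finsupp.single c r) = monomial c.2 r := by
  rw [tp, Finsupp.lsum_single]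

theorem coeff_tp (x : (Unit × Mt p) →₀ ZMod p) (c : Mt p) : coeff c (tp x) = x ((), c) := by
  classical
  induction x using Finsupp.induction_linear with
  | zero => simp
  | add x y hx hy => rw [map_add, coeff_add, hx, hy, Finsupp.add_apply]
  | single d r =>
    obtain ⟨⟨⟩, d⟩ := d
    rw [tp_single, coeff_monomial, Finsupp.single_apply]
    simp

theorem rename_tp (x : (Unit × Mt p) →₀ ZMod p) : rename Subtype.val (tp x) = tpoly x := by
  induction x using Finsupp.induction_linear with
  | zero => simp
  | add x y hx hy => rw [map_add, map_add, map_add, hx, hy]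
  | single d r =>
    rw [tp_single, tpoly_single, rename_monomial]
    rfl

/-- The kernel of a homomorphism to a polynomial ring which kills the `h_n` and maps the
`t_k` to different variables. -/
theorem ker_eq {κ : Type*} (φ : Bp p →ₐ[ZMod p] MvPolynomial κ (ZMod p)) (σ : τI p → κ)
    (hσ : Function.Injective σ) (hX : ∀ n : τI p, φ (X n.1) = X (σ n))
    (hh : ∀ i : ιI p, φ (h p i.1) = 0) : RingHom.ker φ = Jh p := by
  have h1 : Jh p ≤ RingHom.ker φ := by
    rw [Jh, Ideal.span_le]
    rintro _ ⟨i, rfl⟩
    exact hh i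
  refine le_antisymm (fun z hz => ?_) h1
  have h2 := sub_tpart_mem z
  have h3 : φ (tpoly (tpart z)) = 0 := by
    have h4 : φ (z - tpoly (tpart z)) = 0 := h1 h2
    rw [map_sub, (RingHom.mem_ker).1 hz, zero_sub, neg_eq_zero] at h4
    exact h4
  have h4 : φ.comp (rename Subtype.val) = rename σ := by
    apply MvPolynomial.algHom_ext
    intro n
    rw [AlgHom.comp_apply, rename_X, rename_X, hX]
  have h5 : rename σ (tp (tpart z)) = 0 := by
    rw [← h4, AlgHom.comp_apply, rename_tp, h3]
  have h6 : tp (tpart z) = 0 := rename_injective σ hσ (by rw [h5, map_zero])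
  have h7 : tpart z = 0 := by
    ext c
    obtain ⟨⟨⟩, c⟩ := c
    rw [← coeff_tp, h6]
    rfl
  rwa [h7, map_zero, sub_zero] at h2

end Vale.Agent.P093.EN
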