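import Vale.Agent.P093.EN.Trans

/-!
# P093, part N, block EN: the step of the tower, algebraic part

`Bp p = 𝔽_p[b_0, b_1, …]` (`b_n` of weight `n + 1`), `h p n` (`n + 2` not a power of `p`) the
Hurewicz images of polynomial generators of the Lazard ring, `hm a` the monomials in them.
For a linear map `f₀ : H → (V →₀ 𝔽_p[b])` let `PhiM f₀ : (monomials →₀ H) → (V →₀ 𝔽_p[b])` be the
map `y ↦ ∑ₐ h^a · f₀ (y a)`.

* `PhiM_injective` : if `q ∘ f₀ : H → (V →₀ A)` is injective for a ring map `q` which kills the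
  `h p n`, then `PhiM f₀` is injective;
* `PhiM_surj` : if moreover the kernel of `q` is generated by the `h p n` in weights `< d₀`, the
  degrees of the elements of `V` are `≥ B` and `q ∘ f₀` is onto, then `PhiM f₀` is onto in degrees
  `< B + d₀`.
-/

open MvPolynomial

namespace Vale.Agent.P093.EN

open Vale.Agent.P251.F Vale.Agent.P217

variable {p : ℕ} [hp : Fact p.Prime]

section E

variable {V : Type*}

/-- reindexing of the monomials -/
noncomputable def idx (V : Type*) (p : ℕ) : (Mo p × (V × Mt p)) ≃ (V × (ℕ →₀ ℕ)) where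
  toFun x := (x.2.1, join p (x.1, x.2.2))
  invFun y := (((join p).symm y.2).1, (y.1, ((join p).symm y.2).2))
  left_inv x := by simp
  right_inv y := by simp

/-- `V →₀ 𝔽_p[b]` is free over `𝔽_p[h]` -/
noncomputable def eqv (V : Type*) : (Mo p →₀ ((V × Mt p) →₀ ZMod p)) ≃ₗ[ZMod p] (V →₀ Bp p) :=
  (Finsupp.curryLinearEquiv (ZMod p)).symm.trans <|
    (Finsupp.domLCongr (idx V p)).trans <| (Finsupp.curryLinearEquiv (ZMod p)).trans <|
      (Finsupp.mapRange.linearEquiv (AddMonoidAlgebra.coeffLinearEquiv (ZMod p)).symm).trans <|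
        Finsupp.mapRange.linearEquiv (LinearEquiv.ofBijective (θ p).toLinearMap (θ_bijective p))

/-- the monomials in the `h_n` -/
noncomputable def hm (a : Mo p) : Bp p := a.prod fun i e => h p i.1 ^ e

theorem eqv_single (b : Mo p) (v : V) (c : Mt p) (r : ZMod p) :
    eqv V (Finsupp.single b (Finsupp.single (v, c) r)) =
      Finsupp.single v (θ p (monomial (join p (b, c)) r)) := by
  simp only [eqv, LinearEquiv.trans_apply]
  have h1 : (Finsupp.curryLinearEquiv (ZMod p)).symm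
      (Finsupp.single b (Finsupp.single (v, c) r)) = Finsupp.single (b, (v, c)) r := by
    rw [LinearEquiv.symm_apply_eq]
    simp
  rw [h1]
  simp only [Finsupp.domLCongr_apply, Finsupp.domCongr_apply, Finsupp.equivMapDomain_single,
    Finsupp.curryLinearEquiv_apply, Finsupp.curry_single, Finsupp.mapRange.linearEquiv_apply,
    Finsupp.mapRange_single]
  rfl

theorem θ_join_zero (a : Mo p) : θ p (monomial (join p (a, 0)) 1) = hm a := by
  change θ p (monomial (ext0 _ a + ext0 _ 0) 1) = hm a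
  rw [map_zero, add_zero, θ, MvPolynomial.aeval_monomial, map_one, one_mul, hm]
  change ((a.mapDomain Subtype.val).prod fun i e => gen p i ^ e) = _
  rw [Finsupp.prod_mapDomain_index (fun _ => pow_zero _) fun _ _ _ => pow_add _ _ _]
  refine Finsupp.prod_congr fun i _ => ?_
  rw [gen, if_neg i.2]

theorem hm_add (a b : Mo p) : hm (a + b) = hm a * hm b := by
  rw [hm, hm, hm, Finsupp.prod_add_index' (fun _ => pow_zero _) fun _ _ _ => pow_add _ _ _]

theorem hm_zero : hm (0 : Mo p) = 1 := Finsupp.prod_zero_index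

theorem eqv_sh (a : Mo p) (x : Mo p →₀ ((V × Mt p) →₀ ZMod p)) :
    eqv V (sh (k := ZMod p) a x) = hm a • eqv V x := by
  induction x using Finsupp.induction_linear with
  | zero => simp
  | add x y hx hy => rw [map_add, map_add, map_add, hx, hy, smul_add]
  | single b x =>
    rw [sh_single]
    induction x using Finsupp.induction_linear with
    | zero => simp
    | add x y hx hy =>
      rw [Finsupp.single_add, Finsupp.single_add, map_add, map_add, hx, hy, smul_add]
    | single vc r =>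
      obtain ⟨v, c⟩ := vc
      rw [eqv_single, eqv_single, Finsupp.smul_single, smul_eq_mul, ← θ_join_zero, ← map_mul,
        monomial_mul, one_mul, join_add]

/-- the subspace of elements of degree `m` of `V →₀ 𝔽_p[b]` -/
def GrV (dV : V → ℤ) (m : ℤ) : Submodule (ZMod p) (V →₀ Bp p) where
  carrier := {x | ∀ v d, coeff d (x v) ≠ 0 → dV v + (wt d : ℤ) = m}
  zero_mem' := fun v d h => absurd (coeff_zero d) h
  add_mem' := by
    intro x y hx hy v d h
    rw [Finsupp.add_apply, coeff_add] at h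
    by_cases h1 : coeff d (x v) = 0
    · exact hy v d fun h2 => h (by rw [h1, h2, add_zero])
    · exact hx v d h1
  smul_mem' := by
    intro c x hx v d h
    rw [Finsupp.smul_apply, coeff_smul] at h
    exact hx v d fun h2 => h (by rw [h2, smul_zero])

/-- the subspace of elements of degree `m` -/
def GrT (dV : V → ℤ) (m : ℤ) : Submodule (ZMod p) ((V × Mt p) →₀ ZMod p) where
  carrier := {x | ∀ vc, x vc ≠ 0 → dV vc.1 + (dt p vc.2 : ℤ) = m}
  zero_mem' := fun v h => absurd rfl h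
  add_mem' := by
    intro x y hx hy v h
    by_cases h1 : x v = 0
    · exact hy v fun h2 => h (by rw [Finsupp.add_apply, h1, h2, add_zero])
    · exact hx v h1
  smul_mem' := by
    intro c x hx v h
    exact hx v fun h2 => h (by rw [Finsupp.smul_apply, h2, smul_zero])

theorem mem_GrV {dV : V → ℤ} {m : ℤ} {x : V →₀ Bp p} :
    x ∈ GrV dV m ↔ ∀ v d, coeff d (x v) ≠ 0 → dV v + (wt d : ℤ) = m := Iff.rfl

theorem mem_GrT {dV : V → ℤ} {m : ℤ} {x : (V × Mt p) →₀ ZMod p} :
    x ∈ GrT dV m ↔ ∀ vc, x vc ≠ 0 → dV vc.1 + (dt p vc.2 : ℤ) = m := Iff.rfl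

/-- elements without component of degree `m` -/
def OffV (dV : V → ℤ) (m : ℤ) : Submodule (ZMod p) (V →₀ Bp p) where
  carrier := {x | ∀ v d, coeff d (x v) ≠ 0 → dV v + (wt d : ℤ) ≠ m}
  zero_mem' := fun v d h => absurd (coeff_zero d) h
  add_mem' := by
    intro x y hx hy v d h
    rw [Finsupp.add_apply, coeff_add] at h
    by_cases h1 : coeff d (x v) = 0
    · exact hy v d fun h2 => h (by rw [h1, h2, add_zero])
    · exact hx v d h1
  smul_mem' := by
    intro c x hx v d h
    rw [Finsupp.smul_apply, coeff_smul] at h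
    exact hx v d fun h2 => h (by rw [h2, smul_zero])

theorem eq_zero_of_mem {dV : V → ℤ} {m : ℤ} {x : V →₀ Bp p} (h1 : x ∈ GrV dV m)
    (h2 : x ∈ OffV dV m) : x = 0 := by
  ext v d
  by_contra hne
  exact h2 v d hne (h1 v d hne)

theorem θ_monomial_homog (d : ℕ →₀ ℕ) (r : ZMod p) :
    MvPolynomial.IsWeightedHomogeneous (fun n : ℕ => n + 1) (θ p (monomial d r)) (wt d) := by
  rw [θ, MvPolynomial.aeval_monomial, MvPolynomial.algebraMap_eq, wt, Finsupp.weight_apply]
  have h1 : MvPolynomial.IsWeightedHomogeneous (fun n : ℕ => n + 1)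
      (d.prod fun i e => gen p i ^ e) (d.sum fun i e => e • (i + 1)) := by
    unfold Finsupp.prod Finsupp.sum
    exact MvPolynomial.IsWeightedHomogeneous.prod _ _ _ fun i _ => (gen_homog p i).pow _
  have h2 := (MvPolynomial.isWeightedHomogeneous_C (fun n : ℕ => n + 1) r).mul h1
  rwa [zero_add] at h2

theorem single_θ_mem {dV : V → ℤ} {m : ℤ} {v : V} {d : ℕ →₀ ℕ} (h : dV v + (wt d : ℤ) = m)
    (r : ZMod p) : Finsupp.single v (θ p (monomial d r)) ∈ GrV dV m := by
  classical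
  intro v' d' hne
  rw [Finsupp.single_apply] at hne
  split_ifs at hne with hv
  · have h1 := θ_monomial_homog d r hne
    rw [← hv, ← h, ← h1]
    rfl
  · exact absurd (coeff_zero _) hne

theorem single_θ_mem_off {dV : V → ℤ} {m : ℤ} {v : V} {d : ℕ →₀ ℕ} (h : dV v + (wt d : ℤ) ≠ m)
    (r : ZMod p) : Finsupp.single v (θ p (monomial d r)) ∈ OffV dV m := by
  intro v' d' hne
  rw [single_θ_mem (dV := dV) rfl r v' d' hne]
  exact h

theorem eqv_mem {dV : V → ℤ} {m : ℤ} {x : Mo p →₀ ((V × Mt p) →₀ ZMod p)}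
    (hx : ∀ b, x b ∈ GrT dV (m - dg p b)) : eqv V x ∈ GrV dV m := by
  rw [← Finsupp.sum_single x, Finsupp.sum, map_sum]
  refine Submodule.sum_mem _ fun b _ => ?_
  rw [← Finsupp.sum_single (x b), Finsupp.sum, Finsupp.single_finsetSum, map_sum]
  refine Submodule.sum_mem _ fun vc hvc => ?_
  obtain ⟨v, c⟩ := vc
  rw [eqv_single]
  refine single_θ_mem ?_ _
  have h1 := hx b (v, c) (Finsupp.mem_support_iff.1 hvc)
  rw [wt_join]
  push_cast
  simp only at h1
  omega

theorem mem_of_eqv_mem {dV : V → ℤ} {m : ℤ} {x : Mo p →₀ ((V × Mt p) →₀ ZMod p)}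
    (hx : eqv V x ∈ GrV dV m) (b : Mo p) : x b ∈ GrT dV (m - dg p b) := by
  classical
  let P : Mo p → V × Mt p → Prop := fun b vc => dV vc.1 + (dt p vc.2 : ℤ) = m - dg p b
  let on : Mo p →₀ ((V × Mt p) →₀ ZMod p) :=
    ∑ b ∈ x.support, Finsupp.single b ((x b).filter (P b))
  let off : Mo p →₀ ((V × Mt p) →₀ ZMod p) :=
    ∑ b ∈ x.support, Finsupp.single b ((x b).filter fun vc => ¬ P b vc)
  have hsum : x = on + off := by
    conv_lhs => rw [← Finsupp.sum_single x, Finsupp.sum]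
    rw [← Finset.sum_add_distrib]
    refine Finset.sum_congr rfl fun b _ => ?_
    rw [← Finsupp.single_add, Finsupp.filter_add_filter_not]
  have hon : ∀ b, on b = (x b).filter (P b) := by
    intro b
    simp only [on]
    rw [Finsupp.finsetSum_apply, Finset.sum_eq_single b]
    · rw [Finsupp.single_eq_same]
    · intro c _ hc
      rw [Finsupp.single_apply, if_neg hc]
    · intro hb
      rw [Finsupp.single_eq_same, Finsupp.notMem_support_iff.1 hb, Finsupp.filter_zero]
  have h1 : eqv V on ∈ GrV dV m := by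
    refine eqv_mem fun b vc hvc => ?_
    rw [hon, Finsupp.filter_apply] at hvc
    split_ifs at hvc with h
    · exact h
    · exact absurd rfl hvc
  have h2 : eqv V off ∈ OffV dV m := by
    simp only [off]
    rw [map_sum]
    refine Submodule.sum_mem _ fun b _ => ?_
    rw [← Finsupp.sum_single ((x b).filter fun vc => ¬ P b vc), Finsupp.sum,
      Finsupp.single_finsetSum, map_sum]
    refine Submodule.sum_mem _ fun vc hvc => ?_
    obtain ⟨v, c⟩ := vc
    rw [eqv_single]
    refine single_θ_mem_off ?_ _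
    rw [Finsupp.support_filter, Finset.mem_filter] at hvc
    have h3 := hvc.2
    simp only [P] at h3
    rw [wt_join]
    push_cast
    omega
  have h3 : eqv V off = 0 := by
    refine eq_zero_of_mem (dV := dV) (m := m) ?_ h2
    have h4 : eqv V off = eqv V x - eqv V on := by
      rw [eq_sub_iff_add_eq', ← map_add, ← hsum]
    rw [h4]
    exact Submodule.sub_mem _ hx h1
  have h4 : off = 0 := (map_eq_zero_iff _ (eqv V).injective).1 h3
  have h5 : x = on := by rw [hsum, h4, add_zero]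
  rw [h5]
  intro vc hvc
  rw [hon, Finsupp.filter_apply] at hvc
  split_ifs at hvc with h
  · exact h
  · exact absurd rfl hvc

/-- the ideal of the `h_n` -/
noncomputable def Jh (p : ℕ) [Fact p.Prime] : Ideal (Bp p) :=
  Ideal.span (Set.range fun i : ιI p => h p i.1)

theorem hm_single (i : ιI p) : hm (Finsupp.single i 1) = h p i.1 := by
  rw [hm, Finsupp.prod_single_index (h := fun i : ιI p => fun e => h p i.1 ^ e) (pow_zero _),
    pow_one]

theorem hm_mem {b : Mo p} (hb : b ≠ 0) : hm b ∈ Jh p := by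
  obtain ⟨i, hi⟩ := Finsupp.support_nonempty_iff.2 hb
  have h1 : Finsupp.single i 1 + (b - Finsupp.single i 1) = b := by
    refine add_tsub_cancel_of_le ?_
    rw [Finsupp.single_le_iff]
    exact Nat.one_le_iff_ne_zero.2 (Finsupp.mem_support_iff.1 hi)
  rw [← h1, hm_add, hm_single]
  exact Ideal.mul_mem_right _ _ (Ideal.subset_span ⟨i, rfl⟩)

theorem eqv_mem_J {x : Mo p →₀ ((V × Mt p) →₀ ZMod p)} (hx : x 0 = 0) (v : V) :
    eqv V x v ∈ Jh p := by
  classical
  rw [← Finsupp.sum_single x, Finsupp.sum, map_sum, Finsupp.finsetSum_apply]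
  refine Submodule.sum_mem _ fun b hb => ?_
  have hb0 : b ≠ 0 := by
    rintro rfl
    exact Finsupp.mem_support_iff.1 hb hx
  have h1 : Finsupp.single b (x b) = sh (k := ZMod p) b (Finsupp.single 0 (x b)) := by
    rw [sh_single, add_zero]
  rw [h1, eqv_sh, Finsupp.smul_apply, smul_eq_mul]
  exact Ideal.mul_mem_right _ _ (hm_mem hb0)

theorem eqv_symm_smul (a : Mo p) (y : V →₀ Bp p) :
    (eqv V).symm (hm a • y) = sh (k := ZMod p) a ((eqv V).symm y) := by
  rw [LinearEquiv.symm_apply_eq, eqv_sh, LinearEquiv.apply_symm_apply]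

theorem eqv_symm_zero {y : V →₀ Bp p} (hy : ∀ v, y v ∈ Jh p) : (eqv V).symm y 0 = 0 := by
  classical
  have key : ∀ z ∈ Jh p, ∀ (v : V) (c : Bp p),
      (eqv V).symm (Finsupp.single v (c * z)) 0 = 0 := by
    intro z hz
    induction hz using Submodule.span_induction with
    | mem z hz =>
      obtain ⟨i, rfl⟩ := hz
      intro v c
      have h1 : Finsupp.single v (c * h p i.1) = hm (Finsupp.single i 1) •
          (Finsupp.single v c : V →₀ Bp p) := by
        rw [Finsupp.smul_single, smul_eq_mul, hm_single, mul_comm]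
      rw [h1, eqv_symm_smul]
      refine sh_apply_of_not _ _ _ fun b hb => ?_
      have h2 := DFunLike.congr_fun hb i
      simp at h2
    | zero =>
      intro v c
      rw [mul_zero, Finsupp.single_zero, LinearEquiv.map_zero]
      rfl
    | add x y _ _ hx hy =>
      intro v c
      rw [mul_add, Finsupp.single_add, map_add, Finsupp.add_apply, hx, hy, add_zero]
    | smul a x _ hx =>
      intro v c
      rw [smul_eq_mul, ← mul_assoc]
      exact hx v (c * a)
  rw [← Finsupp.sum_single y, Finsupp.sum, map_sum, Finsupp.finsetSum_apply]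
  refine Finset.sum_eq_zero fun v _ => ?_
  have := key (y v) (hy v) v 1
  rwa [one_mul] at this

end E

section Phi

variable {V H : Type*} [AddCommGroup H] [Module (ZMod p) H]

/-- The map `y ↦ ∑ₐ h^a · f₀ (y a)`. -/
noncomputable def PhiM (f₀ : H →ₗ[ZMod p] (V →₀ Bp p)) : (Mo p →₀ H) →ₗ[ZMod p] (V →₀ Bp p) :=
  Finsupp.lsum (ZMod p) fun a =>
    (LinearMap.lsmul (Bp p) (V →₀ Bp p) (hm a)).restrictScalars (ZMod p) ∘ₗ f₀

@[simp] theorem PhiM_single (f₀ : H →ₗ[ZMod p] (V →₀ Bp p)) (a : Mo p) (y : H) :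
    PhiM f₀ (Finsupp.single a y) = hm a • f₀ y := by
  rw [PhiM, Finsupp.lsum_single]
  rfl

theorem PhiM_apply (f₀ : H →ₗ[ZMod p] (V →₀ Bp p)) (y : Mo p →₀ H) :
    PhiM f₀ y = y.sum fun a h => hm a • f₀ h := rfl

/-- the map `f₀` in terms of the free module structure -/
noncomputable def f1 (f₀ : H →ₗ[ZMod p] (V →₀ Bp p)) :
    H →ₗ[ZMod p] (Mo p →₀ ((V × Mt p) →₀ ZMod p)) :=
  (eqv V).symm.toLinearMap ∘ₗ f₀

theorem eqv_fM (f₀ : H →ₗ[ZMod p] (V →₀ Bp p)) (y : Mo p →₀ H) :
    eqv V (fM (f1 f₀) y) = PhiM f₀ y := by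
  induction y using Finsupp.induction_linear with
  | zero => simp
  | add x y hx hy => rw [map_add, map_add, map_add, hx, hy]
  | single a y =>
    rw [fM_single, PhiM_single, eqv_sh]
    congr 1
    exact LinearEquiv.apply_symm_apply _ _

/-- Injectivity. -/
theorem PhiM_injective {A : Type*} [CommRing A] (q : Bp p →+* A) (hq : ∀ i : ιI p, q (h p i.1) = 0)
    (f₀ : H →ₗ[ZMod p] (V →₀ Bp p)) (hf : ∀ y, (∀ v, q (f₀ y v) = 0) → y = 0) :
    Function.Injective (PhiM f₀) := by
  have hJ : ∀ z ∈ Jh p, q z = 0 := by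
    intro z hz
    have h1 : Jh p ≤ RingHom.ker q := by
      rw [Jh, Ideal.span_le]
      rintro _ ⟨i, rfl⟩
      exact hq i
    exact h1 hz
  have h1 : Function.Injective (fM (f1 f₀)) := by
    refine fM_injective (f1 f₀) (dg p) (fun a => dg_eq_zero) fun y hy => hf y fun v => hJ _ ?_
    have h2 := eqv_mem_J hy v
    rwa [show eqv V (f1 f₀ y) = f₀ y from LinearEquiv.apply_symm_apply _ _] at h2
  intro x y hxy
  apply h1
  apply (eqv V).injective
  rw [eqv_fM, eqv_fM, hxy]

/-- Surjectivity in low degrees. -/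
theorem PhiM_surj {A : Type*} [CommRing A] (q : Bp p →+* A) (d₀ : ℕ)
    (hq' : ∀ z : Bp p, (∀ d, coeff d z ≠ 0 → wt d < d₀) → q z = 0 → z ∈ Jh p)
    (f₀ : H →ₗ[ZMod p] (V →₀ Bp p)) (dV : V → ℤ) (B : ℤ) (hB : ∀ v, B ≤ dV v)
    (Hr : ℤ → Submodule (ZMod p) H) (hf₀ : ∀ m, ∀ y ∈ Hr m, f₀ y ∈ GrV dV m)
    (D : ℤ) (hD : D ≤ B + d₀)
    (hf : ∀ m < D, ∀ x ∈ GrV dV m, ∃ y ∈ Hr m, ∀ v, q (f₀ y v) = q (x v)) :
    ∀ m < D, ∀ x ∈ GrV dV m, ∃ y : Mo p →₀ H, (∀ a, y a ∈ Hr (m - dg p a)) ∧ PhiM f₀ y = x := by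
  intro m hm x hx
  have key := fM_surj (f1 f₀) (dg p) (fun a b => map_add _ _ _) (fun a => dg_eq_zero)
    (GrT dV) Hr ?_ B D ?_ ?_ m hm ((eqv V).symm x) ?_
  · obtain ⟨y, hy1, hy2⟩ := key
    refine ⟨y, hy1, ?_⟩
    rw [← eqv_fM, hy2, LinearEquiv.apply_symm_apply]
  · intro m y hy b
    refine mem_of_eqv_mem ?_ b
    rw [show eqv V (f1 f₀ y) = f₀ y from LinearEquiv.apply_symm_apply _ _]
    exact hf₀ m y hy
  · intro m hm x hx
    ext vc
    by_contra hne
    have h1 := hx vc hne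
    have h2 := hB vc.1
    omega
  · intro m hm x hx
    have h1 : eqv V (Finsupp.single 0 x) ∈ GrV dV m := by
      refine eqv_mem fun b => ?_
      classical
      rw [Finsupp.single_apply]
      split_ifs with hb
      · rw [← hb, map_zero, Nat.cast_zero, sub_zero]
        exact hx
      · exact Submodule.zero_mem _
    obtain ⟨y, hy1, hy2⟩ := hf m hm _ h1
    refine ⟨y, hy1, ?_⟩
    have h3 : f₀ y - eqv V (Finsupp.single 0 x) ∈ GrV dV m :=
      Submodule.sub_mem _ (hf₀ m y hy1) h1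
    have h4 : (eqv V).symm (f₀ y - eqv V (Finsupp.single 0 x)) 0 = 0 := by
      refine eqv_symm_zero fun v => hq' _ (fun d hd => ?_) ?_
      · have h5 := h3 v d hd
        have h6 := hB v
        omega
      · rw [Finsupp.sub_apply, map_sub, hy2 v, sub_self]
    rw [map_sub, LinearEquiv.symm_apply_apply, Finsupp.sub_apply, Finsupp.single_eq_same,
      sub_eq_zero] at h4
    exact h4
  · intro b
    refine mem_of_eqv_mem ?_ b
    rw [LinearEquiv.apply_symm_apply]
    exact hx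

/-- the monomials in the `h_n` of weight less than `c` -/
abbrev MoC (p c : ℕ) : Type := {a : Mo p // dg p a < c}

/-- The map `y ↦ ∑ₐ h^a · f₀ (y a)`, with the monomials `h^a` of weight `< c` only. -/
noncomputable def PhiC (c : ℕ) (f₀ : H →ₗ[ZMod p] (V →₀ Bp p)) :
    (MoC p c →₀ H) →ₗ[ZMod p] (V →₀ Bp p) :=
  PhiM f₀ ∘ₗ Finsupp.lmapDomain H (ZMod p) Subtype.val

@[simp] theorem PhiC_single (c : ℕ) (f₀ : H →ₗ[ZMod p] (V →₀ Bp p)) (a : MoC p c) (y : H) :
    PhiC c f₀ (Finsupp.single a y) = hm a.1 • f₀ y := by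
  rw [PhiC, LinearMap.comp_apply, Finsupp.lmapDomain_apply, Finsupp.mapDomain_single, PhiM_single]

theorem PhiC_injective {A : Type*} [CommRing A] (c : ℕ) (q : Bp p →+* A)
    (hq : ∀ i : ιI p, q (h p i.1) = 0)
    (f₀ : H →ₗ[ZMod p] (V →₀ Bp p)) (hf : ∀ y, (∀ v, q (f₀ y v) = 0) → y = 0) :
    Function.Injective (PhiC c f₀) :=
  (PhiM_injective q hq f₀ hf).comp (Finsupp.mapDomain_injective Subtype.val_injective)

theorem PhiC_surj {A : Type*} [CommRing A] (c : ℕ) (q : Bp p →+* A) (d₀ : ℕ)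
    (hq' : ∀ z : Bp p, (∀ d, coeff d z ≠ 0 → wt d < d₀) → q z = 0 → z ∈ Jh p)
    (f₀ : H →ₗ[ZMod p] (V →₀ Bp p)) (dV : V → ℤ) (B : ℤ) (hB : ∀ v, B ≤ dV v)
    (Hr : ℤ → Submodule (ZMod p) H) (hf₀ : ∀ m, ∀ y ∈ Hr m, f₀ y ∈ GrV dV m)
    (hHB : ∀ m < B, Hr m = ⊥)
    (D : ℤ) (hD : D ≤ B + d₀) (hc : D ≤ B + c)
    (hf : ∀ m < D, ∀ x ∈ GrV dV m, ∃ y ∈ Hr m, ∀ v, q (f₀ y v) = q (x v)) :
    ∀ m < D, ∀ x ∈ GrV dV m,
      ∃ y : MoC p c →₀ H, (∀ a, y a ∈ Hr (m - dg p a.1)) ∧ PhiC c f₀ y = x := by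
  classical
  intro m hm x hx
  obtain ⟨y, hy1, hy2⟩ := PhiM_surj q d₀ hq' f₀ dV B hB Hr hf₀ D hD hf m hm x hx
  have h0 : ∀ a, ¬ dg p a < c → y a = 0 := by
    intro a ha
    have h1 := hy1 a
    rwa [hHB _ (by omega), Submodule.mem_bot] at h1
  refine ⟨y.subtypeDomain fun a => dg p a < c, fun a => hy1 a.1, ?_⟩
  rw [PhiC, LinearMap.comp_apply, ← hy2]
  congr 1
  ext a
  rw [Finsupp.lmapDomain_apply]
  by_cases ha : dg p a < c
  · exact Finsupp.mapDomain_apply Subtype.val_injective _ (⟨a, ha⟩ : MoC p c)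
  · rw [h0 a ha]
    refine Finsupp.mapDomain_of_notMem_range _ _ ?_
    rintro ⟨b, rfl⟩
    exact ha b.2

end Phi

end Vale.Agent.P093.EN
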