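import Vale.Agent.P093.EN.PhiPn

/-!
# P093, block EN-ALG: the algebra package of the inductive step, for `Pn p m`

`package_Pn` : `AData.package` for `Pn p m`, with a `ℤ`-indexed grading of `Pn p m`.
-/

open TensorProduct Coalgebra MvPolynomial

namespace Vale.Agent.P093.EN

open Vale.Agent.P093.N Vale.Agent.P093.N.Co

theorem span_le_TGr {k A M : Type*} [Field k] [AddCommGroup A] [Module k A] [AddCommGroup M]
    [Module k M] {𝓐 : ℕ → Submodule k A} {Pg : ℤ → Submodule k A} {𝓜 : ℤ → Submodule k M}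
    (hPg : ∀ n, ∀ a ∈ Pg n, a = 0 ∨ ∃ i : ℕ, (i : ℤ) = n ∧ a ∈ 𝓐 i) (w : ℤ) :
    Submodule.span k {t : A ⊗[k] M | ∃ i j : ℤ, i + j = w ∧ ∃ a ∈ Pg i, ∃ y ∈ 𝓜 j, t = a ⊗ₜ y} ≤
      TGr 𝓐 𝓜 w := by
  rw [Submodule.span_le]
  rintro _ ⟨i, j, hij, a, ha, y, hy, rfl⟩
  rcases hPg i a ha with rfl | ⟨n, rfl, hn⟩
  · rw [TensorProduct.zero_tmul]
    exact Submodule.zero_mem _
  · refine tmul_mem_TGr hn ?_
    have h1 : w - (n : ℤ) = j := by omega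
    rw [h1]
    exact hy

/-- **The algebra package of the inductive step.** -/
theorem package_Pn (p m : ℕ) [Fact p.Prime] {H : Type*} [AddCommGroup H] [Module (ZMod p) H]
    (Pg : ℤ → Submodule (ZMod p) (Pn p m))
    (hPg : ∀ n, ∀ a ∈ Pg n, a = 0 ∨ ∃ i : ℕ, (i : ℤ) = n ∧ a ∈ Pn.gr p m i)
    (Hr : ℤ → Submodule (ZMod p) H) (hint : DirectSum.IsInternal Hr)
    (hfin : ∀ w, Module.Finite (ZMod p) (Hr w)) (B : ℤ) (hB : ∀ w < B, Hr w = ⊥)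
    (ρ : H →ₗ[ZMod p] Pn p m ⊗[ZMod p] H) (hρ : IsCoact ρ)
    (hgr : ∀ w, ∀ x ∈ Hr w, ρ x ∈ Submodule.span (ZMod p) {t : Pn p m ⊗[ZMod p] H |
      ∃ i j : ℤ, i + j = w ∧ ∃ a ∈ Pg i, ∃ y ∈ Hr j, t = a ⊗ₜ y})
    (hinj : Inj ρ) :
    ∃ (J : Type) (d : J → ℤ) (π : H →ₗ[ZMod p] (J →₀ ZMod p)),
      (∀ v, B ≤ d v) ∧ (∀ w, {v | d v = w}.Finite) ∧
      (∀ w, ∀ x ∈ Hr w, ∀ v, π x v ≠ 0 → d v = w) ∧
      ∀ f₀ : H →ₗ[ZMod p] (J →₀ Bp p), (∀ w, ∀ x ∈ Hr w, f₀ x ∈ GrV d w) →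
        Colin ρ (fco J (psiPn p m).toLinearMap) f₀ → (∀ x v, coeff 0 (f₀ x v) = π x v) →
        Function.Injective (PhiC ((p - 1) * p ^ m) f₀) ∧
        (∀ w < B + ((p - 1) * p ^ m : ℕ), ∀ x ∈ GrV d w,
          ∃ y : MoC p ((p - 1) * p ^ m) →₀ H,
            (∀ a, y a ∈ Hr (w - dg p a.1)) ∧ PhiC ((p - 1) * p ^ m) f₀ y = x) ∧
        ∀ {Q : Type*} [AddCommGroup Q] [Module (ZMod p) Q]
          (τ : Q →ₗ[ZMod p] Pn p m ⊗[ZMod p] Q)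
          (g : (J →₀ Bp p) →ₗ[ZMod p] Q), Colin (fco J (psiPn p m).toLinearMap) τ g →
          Function.Surjective g →
          LinearMap.ker g = LinearMap.range (PhiC ((p - 1) * p ^ m) f₀) → Inj τ :=
  (aData p m).package Hr hint hfin B hB ρ hρ (fun w x hx => span_le_TGr hPg w (hgr w x hx)) hinj

end Vale.Agent.P093.EN
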