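import Vale.Agent.P093.EN.PhiGr
import Vale.Agent.P093.EN.PhiFs
import Vale.Agent.P093.EN.Ker

/-!
# P093, block EN-ALG: the algebra package of the inductive step

`AData p A` : what is needed of the quotient bialgebra `A` of the dual Steenrod algebra and of its
coaction on `𝔽_p[b]`. `AData.package` : for a bounded below, degreewise finite, injective
`A`-comodule `H` there are `J`, `d : J → ℤ` and a graded map `π : H → (J →₀ 𝔽_p)` such that for
every graded colinear `f₀ : H → (J →₀ 𝔽_p[b])` with constant term `π` the map `PhiC c f₀` is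
injective, onto in degrees `< B + c`, and has an injective cokernel.
-/

open TensorProduct Coalgebra MvPolynomial

set_option linter.unusedSectionVars false

namespace Vale.Agent.P093.EN

open Vale.Agent.P093.N Vale.Agent.P093.N.Co Vale.Agent.P251.F Vale.Agent.P217

variable {p : ℕ} [hp : Fact p.Prime]

/-- `PhiC` is the map `Phi` of `PhiFs`. -/
theorem PhiC_eq {V H : Type*} [AddCommGroup H] [Module (ZMod p) H] (c : ℕ)
    (f₀ : H →ₗ[ZMod p] (V →₀ Bp p)) :
    PhiC c f₀ = Phi (fun a : MoC p c => hm a.1) f₀ := by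
  refine Finsupp.lhom_ext fun a y => ?_
  rw [PhiC_single, Phi_single]
  ext1 v
  rw [Finsupp.smul_apply, smulFs_apply, smul_eq_mul]

/-- What is needed of the quotient bialgebra `A` of the dual Steenrod algebra. -/
structure AData (p : ℕ) [Fact p.Prime] (A : Type*) [CommRing A] [Bialgebra (ZMod p) A] where
  /-- the coaction on `𝔽_p[b]` -/
  ψ : Bp p →ₐ[ZMod p] A ⊗[ZMod p] Bp p
  isCoact : IsCoact ψ.toLinearMap
  inj : Inj ψ.toLinearMap
  /-- the ring map to `A` -/
  q : Bp p →ₐ[ZMod p] A
  q_eq : ∀ z, TensorProduct.rid (ZMod p) A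
    ((MvPolynomial.lcoeff (ZMod p) (0 : ℕ →₀ ℕ)).lTensor A (ψ z)) = q z
  prim_h : ∀ i : ιI p, ψ (h p i.1) = 1 ⊗ₜ h p i.1
  /-- the grading of `A` -/
  gr : ℕ → Submodule (ZMod p) A
  /-- the degree map of `A` -/
  DA : A →ₗ[ZMod p] (ℕ →₀ A)
  DA_eq : ∀ i, ∀ a ∈ gr i, DA a = Finsupp.single i a
  one_mem : (1 : A) ∈ gr 0
  q_mem : ∀ z w, IsWeightedHomogeneous (fun n : ℕ => n + 1) z w → q z ∈ gr w
  /-- the filtration -/
  F : ℕ → Submodule (ZMod p) A
  conn : IsConn F
  /-- the connectivity -/
  c : ℕ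
  ker : ∀ z : Bp p, (∀ d, coeff d z ≠ 0 → wt d < c) → q z = 0 → z ∈ Jh p

namespace AData

variable {A : Type*} [CommRing A] [Bialgebra (ZMod p) A] (D : AData p A)

include D in
theorem ψ_hm (a : Mo p) : D.ψ (hm a) = 1 ⊗ₜ hm a := by
  rw [hm, map_finsuppProd, Finsupp.prod, Finsupp.prod]
  have : ∀ s : Finset (ιI p), ∏ i ∈ s, D.ψ (h p i.1 ^ a i) =
      (1 : A) ⊗ₜ[ZMod p] ∏ i ∈ s, h p i.1 ^ a i := by
    classical
    intro s
    induction s using Finset.induction_on with
    | empty => simp [Algebra.TensorProduct.one_def]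
    | insert i s hi ih =>
      rw [Finset.prod_insert hi, Finset.prod_insert hi, ih, map_pow, D.prim_h,
        Algebra.TensorProduct.tmul_pow, one_pow, Algebra.TensorProduct.tmul_mul_tmul, one_mul]
  exact this _

theorem coeff_zero_of_homog {z : Bp p} {w : ℕ}
    (hz : IsWeightedHomogeneous (fun n : ℕ => n + 1) z w) (hw : w ≠ 0) : coeff 0 z = 0 := by
  by_contra h
  have := hz h
  rw [map_zero] at this
  exact hw this.symm

theorem q_h (i : ιI p) : D.q (h p i.1) = 0 := by
  rw [← D.q_eq, D.prim_h, LinearMap.lTensor_tmul, TensorProduct.rid_tmul, MvPolynomial.lcoeff_apply,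
    coeff_zero_of_homog (h_homog p i.1) (Nat.succ_ne_zero _), zero_smul]

section pkg

variable {H : Type*} [AddCommGroup H] [Module (ZMod p) H]

/-- the `v`-th component of `q ∘ f₀` -/
theorem q_apply {ρ : H →ₗ[ZMod p] A ⊗[ZMod p] H} {J : Type*}
    {f₀ : H →ₗ[ZMod p] (J →₀ Bp p)} (hf : Colin ρ (fco J D.ψ.toLinearMap) f₀)
    {π : H →ₗ[ZMod p] (J →₀ ZMod p)} (hπ : ∀ y v, coeff 0 (f₀ y v) = π y v) (y : H) (v : J) :
    D.q (f₀ y v) = TensorProduct.rid (ZMod p) A ((Finsupp.lapply v).lTensor A
      (π.lTensor A (ρ y))) := by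
  classical
  -- the component of the coaction
  have h1 : ∀ x : J →₀ Bp p, (Finsupp.lapply v : (J →₀ Bp p) →ₗ[ZMod p] Bp p).lTensor A
      (fco J D.ψ.toLinearMap x) = D.ψ (x v) := by
    intro x
    induction x using Finsupp.induction_linear with
    | zero => simp
    | add x y hx hy => rw [map_add, map_add, hx, hy, Finsupp.add_apply, map_add]
    | single w b =>
      rw [fco_single, ← LinearMap.comp_apply, ← LinearMap.lTensor_comp]
      by_cases hw : w = v
      · subst hw
        have : (Finsupp.lapply w : (J →₀ Bp p) →ₗ[ZMod p] Bp p) ∘ₗ Finsupp.lsingle w =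
            LinearMap.id := by
          ext1 b; simp
        rw [this, LinearMap.lTensor_id, Finsupp.single_eq_same]
        rfl
      · have : (Finsupp.lapply v : (J →₀ Bp p) →ₗ[ZMod p] Bp p) ∘ₗ Finsupp.lsingle w = 0 := by
          refine LinearMap.ext fun b => ?_
          simp [hw]
        rw [this, LinearMap.lTensor_zero, Finsupp.single_apply, if_neg hw]
        simp
  have h2 : D.ψ (f₀ y v) = (Finsupp.lapply v : (J →₀ Bp p) →ₗ[ZMod p] Bp p).lTensor A
      (f₀.lTensor A (ρ y)) := by
    rw [← h1, hf.apply]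
  rw [← D.q_eq, h2, ← LinearMap.comp_apply, ← LinearMap.lTensor_comp, ← LinearMap.comp_apply,
    ← LinearMap.lTensor_comp, ← LinearMap.comp_apply (LinearMap.lTensor A (Finsupp.lapply v)),
    ← LinearMap.lTensor_comp]
  congr 3
  refine LinearMap.ext fun y => ?_
  simp only [LinearMap.comp_apply, Finsupp.lapply_apply, MvPolynomial.lcoeff_apply]
  exact hπ y v

/-- elements of `A ⊗ (J →₀ k)` are determined by their components -/
theorem eq_of_comp {J : Type*} {x y : A ⊗[ZMod p] (J →₀ ZMod p)}
    (hxy : ∀ v, TensorProduct.rid (ZMod p) A ((Finsupp.lapply v).lTensor A x) =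
      TensorProduct.rid (ZMod p) A ((Finsupp.lapply v).lTensor A y)) : x = y := by
  classical
  let e := TensorProduct.finsuppScalarRight (ZMod p) (ZMod p) A J
  have key : ∀ (x : A ⊗[ZMod p] (J →₀ ZMod p)) (v : J), e x v =
      TensorProduct.rid (ZMod p) A ((Finsupp.lapply v).lTensor A x) := by
    intro x v
    induction x with
    | zero => simp
    | add x y hx hy => rw [map_add, Finsupp.add_apply, hx, hy, map_add, map_add]
    | tmul a f => simp [e, TensorProduct.finsuppScalarRight_apply_tmul_apply]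
  apply e.injective
  ext v
  rw [key, key, hxy]

/-- **The algebra package of the inductive step.** -/
theorem package (Hr : ℤ → Submodule (ZMod p) H) (hint : DirectSum.IsInternal Hr)
    (hfin : ∀ w, Module.Finite (ZMod p) (Hr w)) (B : ℤ) (hB : ∀ w < B, Hr w = ⊥)
    (ρ : H →ₗ[ZMod p] A ⊗[ZMod p] H) (hρ : IsCoact ρ)
    (hgr : ∀ w, ∀ x ∈ Hr w, ρ x ∈ TGr D.gr Hr w) (hinj : Inj ρ) :
    ∃ (J : Type) (d : J → ℤ) (π : H →ₗ[ZMod p] (J →₀ ZMod p)),
      (∀ v, B ≤ d v) ∧ (∀ w, {v | d v = w}.Finite) ∧
      (∀ w, ∀ x ∈ Hr w, ∀ v, π x v ≠ 0 → d v = w) ∧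
      ∀ f₀ : H →ₗ[ZMod p] (J →₀ Bp p), (∀ w, ∀ x ∈ Hr w, f₀ x ∈ GrV d w) →
        Colin ρ (fco J D.ψ.toLinearMap) f₀ → (∀ x v, coeff 0 (f₀ x v) = π x v) →
        Function.Injective (PhiC D.c f₀) ∧
        (∀ m < B + D.c, ∀ x ∈ GrV d m, ∃ y : MoC p D.c →₀ H,
          (∀ a, y a ∈ Hr (m - dg p a.1)) ∧ PhiC D.c f₀ y = x) ∧
        ∀ {Q : Type*} [AddCommGroup Q] [Module (ZMod p) Q] (τ : Q →ₗ[ZMod p] A ⊗[ZMod p] Q)
          (g : (J →₀ Bp p) →ₗ[ZMod p] Q), Colin (fco J D.ψ.toLinearMap) τ g →
          Function.Surjective g → LinearMap.ker g = LinearMap.range (PhiC D.c f₀) → Inj τ := by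
  classical
  obtain ⟨J, d, e, π, h1, h2, h3, h4, h5, h6⟩ := exists_graded_proj Hr hint hfin B hB (prim ρ)
  obtain ⟨DH, hDH⟩ := exists_isDec hint
  -- `π` is bijective on the primitive elements
  have hbij : Function.Bijective (π ∘ₗ (prim ρ).subtype) := by
    constructor
    · rw [← LinearMap.ker_eq_bot, LinearMap.ker_eq_bot']
      rintro ⟨x, hx⟩ h0
      have h0' : π x = 0 := h0
      have h7 : ∀ w, DH x w = 0 := by
        intro w
        have h8 := comp_mem_prim D.DA_eq D.one_mem hDH hgr hx w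
        have h9 := h6 w (DH x w) ⟨h8, hDH.mem x w⟩
        have h10 : π (DH x w) = 0 := by
          ext v
          by_contra hne
          have hdv := h5 w _ (hDH.mem x w) v hne
          -- the component `v` of `π x` is that of `π (x_w)`
          have h11 : π x v = π (DH x w) v := by
            have h12 : π x = (DH x).sum fun _ y => π y := by
              conv_lhs => rw [← hDH.sum x]
              rw [Finsupp.sum, Finsupp.sum, map_sum]
            rw [h12, Finsupp.sum, Finsupp.finsetSum_apply]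
            have h13 : ∀ w', w' ≠ w → π (DH x w') v = 0 := by
              intro w' hw'
              by_contra hne'
              exact hw' ((h5 w' _ (hDH.mem x w') v hne').symm.trans hdv)
            by_cases hw : w ∈ (DH x).support
            · rw [Finset.sum_eq_single_of_mem w hw fun w' _ hw' => h13 w' hw']
            · rw [Finset.sum_eq_zero fun w' hw' => h13 w' fun h => hw (h ▸ hw'),
                Finsupp.notMem_support_iff.1 hw, map_zero, Finsupp.zero_apply]
          rw [← h11, h0'] at hne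
          exact hne rfl
        rw [← h9, h10, Finsupp.sum_zero_index]
      have h8 : DH x = 0 := by
        ext w
        rw [h7 w]
        rfl
      have h9 := hDH.sum x
      rw [h8, Finsupp.sum_zero_index] at h9
      exact Subtype.ext h9.symm
    · intro y
      refine ⟨⟨y.sum fun v c => c • e v, Submodule.sum_mem _ fun v _ =>
        Submodule.smul_mem _ _ (h3 v).1⟩, ?_⟩
      change π (y.sum fun v c => c • e v) = y
      rw [Finsupp.sum, map_sum]
      conv_rhs => rw [← Finsupp.sum_single y]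
      refine Finset.sum_congr rfl fun v _ => ?_
      rw [map_smul, h4, Finsupp.smul_single, smul_eq_mul, mul_one]
  have hb := Inj.bijective D.conn hρ hinj hbij
  refine ⟨J, d, π, h1, h2, h5, fun f₀ hg hf hc => ?_⟩
  have hi : Function.Injective (PhiC D.c f₀) := by
    refine PhiC_injective D.c (D.q : Bp p →+* A) (fun i => D.q_h i) f₀ fun y hy => ?_
    apply hb.1
    rw [map_zero]
    refine eq_of_comp fun v => ?_
    rw [map_zero, map_zero, LinearMap.comp_apply, ← D.q_apply hf hc]
    exact hy v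
  refine ⟨hi, ?_, ?_⟩
  · refine PhiC_surj D.c (D.q : Bp p →+* A) D.c D.ker f₀ d B h1 Hr hg hB (B + D.c) le_rfl le_rfl ?_
    intro m _ x hx
    -- the element of `A ⊗ (J →₀ k)`
    let z : A ⊗[ZMod p] (J →₀ ZMod p) := x.sum fun v b => D.q b ⊗ₜ Finsupp.single v 1
    have hz : ∀ v, TensorProduct.rid (ZMod p) A ((Finsupp.lapply v).lTensor A z) =
        D.q (x v) := by
      intro v
      simp only [z, Finsupp.sum, map_sum, LinearMap.lTensor_tmul, TensorProduct.rid_tmul,
        Finsupp.lapply_apply, Finsupp.single_apply, ite_smul, one_smul, zero_smul]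
      rw [Finset.sum_ite_eq']
      split_ifs with hv
      · rfl
      · rw [Finsupp.notMem_support_iff.1 hv, map_zero]
    obtain ⟨y, hy⟩ := hb.2 z
    -- gradings
    let 𝓙 : ℤ → Submodule (ZMod p) (J →₀ ZMod p) := fun w =>
      { carrier := {f | ∀ v, f v ≠ 0 → d v = w}
        zero_mem' := fun v hv => absurd rfl hv
        add_mem' := by
          intro f g hf hg v hv
          by_cases h : f v = 0
          · exact hg v fun h' => hv (by rw [Finsupp.add_apply, h, h', add_zero])
          · exact hf v h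
        smul_mem' := by
          intro c f hf v hv
          exact hf v fun h => hv (by rw [Finsupp.smul_apply, h, smul_zero]) }
    let D0 : (J →₀ ZMod p) →ₗ[ZMod p] (ℤ →₀ (J →₀ ZMod p)) :=
      Finsupp.lsum (ZMod p) fun v => Finsupp.lsingle (d v) ∘ₗ Finsupp.lsingle v
    have hD0 : IsDeg 𝓙 D0 := by
      intro w f hf
      have h7 : D0 f = f.sum fun v c => Finsupp.single (d v) (Finsupp.single v c) := rfl
      rw [h7]
      conv_rhs => rw [← Finsupp.sum_single f]
      rw [Finsupp.sum, Finsupp.sum, Finsupp.single_finsetSum]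
      refine Finset.sum_congr rfl fun v hv => ?_
      rw [hf v (Finsupp.mem_support_iff.1 hv)]
    obtain ⟨E, hE⟩ := exists_isDeg_TGr D.DA_eq hD0
    have hπg : ∀ w, ∀ x ∈ Hr w, (π.lTensor A ∘ₗ ρ) x ∈ TGr D.gr 𝓙 w := fun w x hx =>
      lTensor_mem_TGr (𝓝 := 𝓙) (fun w x hx => h5 w x hx) (hgr w x hx)
    have hzm : z ∈ TGr D.gr 𝓙 m := by
      refine Submodule.sum_mem _ fun v hv => ?_
      -- split `x v` in its homogeneous components: it is homogeneous
      by_cases hdv : d v ≤ m
      · obtain ⟨w, hw⟩ := Int.eq_ofNat_of_zero_le (sub_nonneg.2 hdv)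
        refine tmul_mem_TGr (i := w) (D.q_mem _ _ ?_) ?_
        · intro e he
          have h8 := hx v e he
          have h9 : (wt e : ℤ) = (w : ℤ) := by linarith
          exact_mod_cast h9
        · intro v' hv'
          rw [Finsupp.single_apply] at hv'
          split_ifs at hv' with h
          · rw [← h]; linarith
          · exact absurd rfl hv'
      · exfalso
        apply Finsupp.mem_support_iff.1 hv
        ext e
        by_contra hne
        have h8 := hx v e hne
        have h9 : (0 : ℤ) ≤ (wt e : ℤ) := Int.natCast_nonneg _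
        linarith
    have hym : y ∈ Hr m := mem_of_apply_mem hDH hE hπg hb.1 (by rw [hy]; exact hzm)
    refine ⟨y, hym, fun v => ?_⟩
    have h7 := D.q_apply hf hc y v
    have h8 : (π.lTensor A) (ρ y) = z := hy
    rw [h8, hz] at h7
    exact h7
  · intro Q _ _ τ g hgτ hgs hker
    rw [PhiC_eq] at hi hker
    exact inj_coker_Phi D.isCoact D.inj hinj (fun a => D.ψ_hm a.1) hf hi hgτ hgs hker

end pkg

end AData

end Vale.Agent.P093.EN
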