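import Vale.Agent.P093.EN.PhiPsi

/-!
# P093, block EN-ALG: the data for the quotients `Pn p m` of the dual Steenrod algebra

* `inj_psiPn` : `F_p[b]` is an injective `Pn p m`-comodule (total integral);
* `aData p m : AData p (Pn p m)`, with `c = (p - 1) p ^ m`.
-/

open TensorProduct Coalgebra

namespace Vale.Agent.P093.EN

open Vale.Agent.P093.N Vale.Agent.P093.N.Co Vale.Agent.P093.N.Phi Vale.Agent.P251.F
  Vale.Agent.P251.Q Vale.Agent.P217

variable (p m : ℕ) [hp : Fact p.Prime]

/-- the generators of `Pn p m` -/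
noncomputable def tPn (k : ℕ) : Pn p m := Pn.t p m (k + 1)

theorem tPn_eq (k : ℕ) : tPn p m k = Pn.mkAlg p m (tPS p k) := rfl

theorem isAddHopf_Pn : IsAddHopf p (tPn p m) := (isAddHopf_PS p).map p (Pn.mk p m)

/-- the coaction on `F_p[b]` -/
noncomputable def psiPn : Bp p →ₐ[ZMod p] Pn p m ⊗[ZMod p] Bp p := psiC p (tPn p m)

/-- the map `F_p[b] → Pn p m` -/
noncomputable def qPn : Bp p →ₐ[ZMod p] Pn p m := qC p (tPn p m)

theorem isCoact_psiPn : IsCoact (psiPn p m).toLinearMap := (isAddHopf_Pn p m).isCoact_psiC p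

theorem qPn_eq : qPn p m = (Pn.mkAlg p m).comp (qC p (tPS p)) :=
  qC_map p (tPS p) (Pn.mkAlg p m)

theorem psiPn_eq : psiPn p m = (Algebra.TensorProduct.map (Pn.mkAlg p m)
    (AlgHom.id (ZMod p) (Bp p))).comp (psiC p (tPS p)) :=
  psiC_map p (tPS p) (Pn.mkAlg p m)

section qeq

variable {p} {P : Type} [CommRing P] [Bialgebra (ZMod p) P] {t : ℕ → P}

theorem counit_qC (h : IsAddHopf p t) (z : Fb p) :
    Coalgebra.counit (R := ZMod p) (qC p t z) = MvPolynomial.constantCoeff z := by
  have h1 : ((Bialgebra.counitAlgHom (ZMod p) P).comp (qC p t)).toRingHom =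
      (MvPolynomial.constantCoeff : Fb p →+* ZMod p) := by
    refine MvPolynomial.ringHom_ext (fun c => ?_) fun n => ?_
    · have h3 : ∀ (f g : ZMod p →+* ZMod p), f = g := fun f g => Subsingleton.elim _ _
      exact DFunLike.congr_fun (h3 (((Bialgebra.counitAlgHom (ZMod p) P).comp
        (qC p t)).toRingHom.comp MvPolynomial.C)
        ((MvPolynomial.constantCoeff : Fb p →+* ZMod p).comp MvPolynomial.C)) c
    · have h2 := map_eps_addSer p h
      have h3 := congrArg (fun s => InvSeries.c s (n + 1)) h2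
      simp only [InvSeries.c_map, InvSeries.c_one_succ] at h3
      rw [MvPolynomial.constantCoeff_X]
      change Coalgebra.counit (R := ZMod p) (qC p t (MvPolynomial.X n)) = 0
      rw [qC, MvPolynomial.aeval_X]
      exact h3
  exact DFunLike.congr_fun h1 z

theorem q_eq_psi (h : IsAddHopf p t) (z : Fb p) : TensorProduct.rid (ZMod p) P
    ((MvPolynomial.lcoeff (ZMod p) (0 : ℕ →₀ ℕ)).lTensor P (psiC p t z)) = qC p t z := by
  have h1 := (h.colin_qC p).apply z
  have h2 : TensorProduct.rid (ZMod p) P ((Coalgebra.counit (R := ZMod p)).lTensor P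
      (Coalgebra.comul (R := ZMod p) (qC p t z))) = qC p t z := by
    rw [Coalgebra.lTensor_counit_comul]
    simp
  conv_rhs => rw [← h2]
  congr 1
  have h3 : Coalgebra.comul (R := ZMod p) (qC p t z) =
      (qC p t).toLinearMap.lTensor P (psiC p t z) := h1
  rw [h3, ← LinearMap.comp_apply, ← LinearMap.lTensor_comp]
  congr 2
  refine LinearMap.ext fun x => ?_
  exact (counit_qC h x).symm

/-- `qC` is homogeneous. -/
theorem qC_mem (h : IsAddHopf p t) {𝒜 : ℕ → Submodule (ZMod p) P} [SetLike.GradedMonoid 𝒜]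
    (ht : ∀ k : ℕ, t k ∈ 𝒜 (p ^ (k + 1) - 1)) {d : ℕ} {z : Fb p} (hz : z ∈ bgr p d) :
    qC p t z ∈ 𝒜 d := by
  rw [← q_eq_psi h]
  have h1 := psiC_mem p ht hz
  refine Submodule.span_induction (p := fun x _ => TensorProduct.rid (ZMod p) P
    ((MvPolynomial.lcoeff (ZMod p) (0 : ℕ →₀ ℕ)).lTensor P x) ∈ 𝒜 d) ?_ ?_ ?_ ?_ h1
  · rintro _ ⟨i, j, a, b, hij, ha, hb, rfl⟩
    rw [LinearMap.lTensor_tmul, TensorProduct.rid_tmul, MvPolynomial.lcoeff_apply]
    by_cases hj : j = 0
    · subst hj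
      rw [← hij, add_zero]
      exact Submodule.smul_mem _ _ ha
    · have h2 : MvPolynomial.coeff 0 b = 0 := by
        by_contra hne
        have h3 := hb hne
        rw [map_zero] at h3
        exact hj h3.symm
      rw [h2, zero_smul]
      exact zero_mem _
  · rw [map_zero, map_zero]
    exact zero_mem _
  · intro x y _ _ hx hy
    rw [map_add, map_add]
    exact add_mem hx hy
  · intro c x _ hx
    rw [map_smul, map_smul]
    exact Submodule.smul_mem _ _ hx

end qeq

omit hp in
theorem tPS_mem (k : ℕ) : tPS p k ∈ PS.gr p (p ^ (k + 1) - 1) := PS.t_mem_gr (k + 1)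

theorem tPn_mem (k : ℕ) : tPn p m k ∈ Pn.gr p m (p ^ (k + 1) - 1) :=
  Pn.mk_mem_gr (tPS_mem p k)

/-! ### The total integral -/

/-- the section `PS p → F_p[b]` -/
noncomputable def secPS : PS p →ₐ[ZMod p] Bp p :=
  PS.lift fun k => MvPolynomial.X (p ^ (k + 1) - 2)

theorem two_le_pow (k : ℕ) : 2 ≤ p ^ (k + 1) :=
  hp.out.two_le.trans (Nat.le_self_pow (Nat.succ_ne_zero k) p)

theorem qC_secPS (x : PS p) : qC p (tPS p) (secPS p x) = x := by
  have h : (qC p (tPS p)).comp (secPS p) = AlgHom.id (ZMod p) (PS p) := by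
    refine PS.algHom_ext fun k => ?_
    rw [AlgHom.comp_apply, secPS, PS.lift_t_succ, qC, MvPolynomial.aeval_X]
    have h1 := addSer_c_pow p hp.out.one_lt (tPS p) k
    have h2 := two_le_pow p k
    have h3 : p ^ (k + 1) - 2 + 1 = p ^ (k + 1) - 1 := by omega
    rw [h3, h1]
    rfl
  exact DFunLike.congr_fun h x

theorem secPS_mem {d : ℕ} {x : PS p} (hx : x ∈ PS.gr p d) : secPS p x ∈ bgr p d := by
  refine PS.gr_induction (motive := fun x => secPS p x ∈ bgr p d) hx ?_ ?_ ?_ ?_
  · rintro e rfl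
    refine PS.mon_induction (motive := fun e => secPS p (PS.mon p e) ∈ bgr p (wtE p e)) e ?_ ?_ ?_
    · rw [PS.mon_zero, map_one, map_zero]
      exact SetLike.one_mem_graded (bgr p)
    · intro e f he hf
      rw [PS.mon_add, map_mul, map_add]
      exact SetLike.mul_mem_graded he hf
    · intro k n
      rw [PS.mon_single, map_pow, wtE_single, secPS, PS.lift_t_succ]
      have h1 := SetLike.pow_mem_graded (A := bgr p) n (X_mem_bgr p (p ^ (k + 1) - 2))
      have h2 := two_le_pow p k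
      have h3 : n • (p ^ (k + 1) - 2 + 1) = n * N.wt p k := by
        rw [smul_eq_mul]
        unfold N.wt
        congr 1
        omega
      rw [← h3]
      exact h1
  · rw [map_zero]
    exact zero_mem _
  · intro x y hx hy
    rw [map_add]
    exact add_mem hx hy
  · intro c x hx
    rw [map_smul]
    exact Submodule.smul_mem _ _ hx

theorem bgr_zero {x : Bp p} (hx : x ∈ bgr p 0) : ∃ c : ZMod p, x = c • (1 : Bp p) := by
  refine ⟨MvPolynomial.coeff 0 x, ?_⟩
  rw [MvPolynomial.smul_eq_C_mul, mul_one]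
  ext d
  rw [MvPolynomial.coeff_C]
  split_ifs with hd
  · rw [← hd]
  · by_contra hne
    have h1 : Finsupp.weight (fun m : ℕ => m + 1) d = 0 := hx hne
    apply hd
    ext n
    by_contra h2
    rw [Finsupp.weight_apply, Finsupp.sum, Finset.sum_eq_zero_iff] at h1
    have h3 := h1 n (Finsupp.mem_support_iff.2 fun h4 => h2 (by rw [h4]; rfl))
    rw [smul_eq_mul, mul_eq_zero] at h3
    rcases h3 with h3 | h3
    · exact h2 (by rw [h3]; rfl)
    · omega

/-- **`F_p[b]` is an injective `Pn p m`-comodule.** -/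
theorem inj_psiPn : Inj (psiPn p m).toLinearMap := by
  have hgr : ∀ x ∈ bgr p (Pn.topDeg p m),
      (psiPn p m).toLinearMap x ∈ tgr (Pn.gr p m) (bgr p) (Pn.topDeg p m) := fun x hx =>
    psiC_mem p (tPn_mem p m) hx
  have hq : Colin (psiPn p m).toLinearMap (Pn.co p m) (qC p (tPS p)).toLinearMap := by
    have h1 := (isAddHopf_PS p).colin_qC p
    unfold Colin at h1 ⊢
    rw [psiPn_eq]
    have h2 : ((Algebra.TensorProduct.map (Pn.mkAlg p m)
        (AlgHom.id (ZMod p) (Bp p))).comp (psiC p (tPS p))).toLinearMap =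
        (Pn.mkAlg p m).toLinearMap.rTensor (Bp p) ∘ₗ (psiC p (tPS p)).toLinearMap := rfl
    rw [h2, Pn.co, LinearMap.comp_assoc, h1, ← LinearMap.comp_assoc, ← LinearMap.comp_assoc,
      LinearMap.rTensor_comp_lTensor, LinearMap.lTensor_comp_rTensor]
  obtain ⟨φ, hφ, h1⟩ := Pn.exists_totInt (isCoact_psiPn p m) (ℳ := bgr p) hgr (1 : Bp p)
    (fun x hx => bgr_zero p hx) hq (map_one (qC p (tPS p)))
    (b := secPS p (Pn.top p m)) (secPS_mem p (Pn.top_mem p m)) (qC_secPS p _)
  exact inj_of_integral isAnti_antipode (psiPn p m) (isCoact_psiPn p m) hφ h1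

/-! ### The kernel in low degrees -/

theorem hur_eq_hC (a : Laz) : hur p a = hC p a := (hC_eq_toB p a).symm

theorem ker_qC_PS_eq : RingHom.ker ((PS.equiv p).toAlgHom.comp (qC p (tPS p))) = Jh p := by
  have hk : ∀ n : τI p, ∃ k, n.1 + 2 = p ^ (k + 1) := by
    rintro ⟨n, k, hk⟩
    rcases k with _ | k
    · simp at hk
    · exact ⟨k, hk⟩
  choose σ hσ using hk
  refine ker_eq _ σ ?_ ?_ ?_
  · intro a b hab
    have h1 := hσ a
    rw [hab, ← hσ b] at h1
    exact Subtype.ext (by omega)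
  · intro n
    change PS.equiv p (qC p (tPS p) (MvPolynomial.X n.1)) = _
    rw [qC, MvPolynomial.aeval_X]
    have h1 := addSer_c_pow p hp.out.one_lt (tPS p) (σ n)
    have h3 : n.1 + 1 = p ^ (σ n + 1) - 1 := by
      have := hσ n
      omega
    rw [h3, h1]
    rfl
  · intro i
    change PS.equiv p (qC p (tPS p) (hur p (Laz.x i.1))) = 0
    rw [hur_eq_hC, qC_hC]
    have h1 : epsC p (MvPolynomial.C (Laz.x i.1)) = 0 := by
      have h2 : (MvPolynomial.constantCoeff : Bp p →+* ZMod p) (h p i.1) = 0 :=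
        AData.coeff_zero_of_homog (h_homog p i.1) (Nat.succ_ne_zero _)
      have h3 := counit_qC (isAddHopf_PS p) (h p i.1)
      rw [h2] at h3
      have h4 : h p i.1 = hC p (Laz.x i.1) := hur_eq_hC p _
      rw [h4, qC_hC] at h3
      have h5 : Coalgebra.counit (R := ZMod p) (algebraMap (ZMod p) (PS p)
          (epsC p (MvPolynomial.C (Laz.x i.1)))) = epsC p (MvPolynomial.C (Laz.x i.1)) :=
        Bialgebra.counit_algebraMap _
      rw [h5] at h3
      exact h3
    rw [h1, map_zero, map_zero]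

/-- the degree map of `Pn p m` -/
noncomputable def DPn : Pn p m →ₗ[ZMod p] (ℕ →₀ Pn p m) :=
  DirectSum.toModule (ZMod p) ℕ (ℕ →₀ Pn p m)
    (fun i => Finsupp.lsingle i ∘ₗ (Pn.gr p m i).subtype) ∘ₗ
    (DirectSum.decomposeLinearEquiv (Pn.gr p m)).toLinearMap

theorem DPn_eq {i : ℕ} {a : Pn p m} (ha : a ∈ Pn.gr p m i) : DPn p m a = Finsupp.single i a := by
  rw [DPn, LinearMap.comp_apply]
  have h1 : (DirectSum.decomposeLinearEquiv (Pn.gr p m)).toLinearMap a =
      DirectSum.lof (ZMod p) ℕ (fun i => ↥(Pn.gr p m i)) i ⟨a, ha⟩ :=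
    DirectSum.decompose_of_mem _ ha
  rw [h1, DirectSum.toModule_lof]
  rfl

theorem ker_low (z : Bp p) (hz : ∀ d, MvPolynomial.coeff d z ≠ 0 → EN.wt d < (p - 1) * p ^ m)
    (h0 : qPn p m z = 0) : z ∈ Jh p := by
  classical
  set c := (p - 1) * p ^ m with hc
  -- the homogeneous components
  let comp : ℕ → Bp p := fun w => MvPolynomial.weightedHomogeneousComponent (fun n : ℕ => n + 1) w z
  have hcomp : ∀ w, comp w ∈ bgr p w := fun w =>
    MvPolynomial.weightedHomogeneousComponent_isWeightedHomogeneous (w := fun n : ℕ => n + 1) w z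
  have hsum : z = ∑ w ∈ Finset.range c, comp w := by
    ext d
    rw [MvPolynomial.coeff_sum]
    simp only [comp, MvPolynomial.coeff_weightedHomogeneousComponent]
    rw [Finset.sum_ite_eq]
    split_ifs with hd
    · rfl
    · by_contra hne
      exact hd (Finset.mem_range.2 (hz d hne))
  have h1 : ∀ w < c, qPn p m (comp w) = 0 := by
    intro w hw
    have h2 : DPn p m (qPn p m z) w = qPn p m (comp w) := by
      conv_lhs => rw [hsum]
      rw [map_sum, map_sum, Finsupp.finsetSum_apply]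
      have h3 : ∀ v ∈ Finset.range c, DPn p m (qPn p m (comp v)) w =
          if v = w then qPn p m (comp v) else 0 := by
        intro v _
        have h5 : qPn p m (comp v) ∈ Pn.gr p m v :=
          qC_mem (isAddHopf_Pn p m) (tPn_mem p m) (hcomp v)
        rw [DPn_eq p m h5, Finsupp.single_apply]
      rw [Finset.sum_congr rfl h3, Finset.sum_ite_eq', if_pos (Finset.mem_range.2 hw)]
    rw [← h2, h0, map_zero]
    rfl
  have h2 : ∀ w < c, comp w ∈ Jh p := by
    intro w hw
    rw [← ker_qC_PS_eq, RingHom.mem_ker]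
    change PS.equiv p (qC p (tPS p) (comp w)) = 0
    have h3 : qC p (tPS p) (comp w) = 0 := by
      refine Pn.eq_zero_of_mkAlg (m := m) hw
        (qC_mem (isAddHopf_PS p) (tPS_mem p) (hcomp w)) ?_
      have h4 := h1 w hw
      rw [qPn_eq] at h4
      exact h4
    rw [h3, map_zero]
  rw [hsum]
  exact Submodule.sum_mem _ fun w hw => h2 w (Finset.mem_range.1 hw)

/-- **The data for `Pn p m`.** -/
noncomputable def aData : AData p (Pn p m) where
  ψ := psiPn p m
  isCoact := isCoact_psiPn p m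
  inj := inj_psiPn p m
  q := qPn p m
  q_eq := q_eq_psi (isAddHopf_Pn p m)
  prim_h i := by
    rw [show h p i.1 = hC p (Laz.x i.1) from hur_eq_hC p _]
    exact psiC_hC p (tPn p m) _
  gr := Pn.gr p m
  DA := DPn p m
  DA_eq _ _ ha := DPn_eq p m ha
  one_mem := SetLike.one_mem_graded (Pn.gr p m)
  q_mem z w hz := qC_mem (isAddHopf_Pn p m) (tPn_mem p m) hz
  F := grF (Pn.gr p m)
  conn := Pn.isConn p m
  c := (p - 1) * p ^ m
  ker := ker_low p m

end Vale.Agent.P093.EN
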