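import Vale.Agent.P093.N.PhiPS
import Vale.Agent.P093.N.PhiGr
import Vale.Agent.P093.N.HopfInt
import Vale.Agent.P093.EN.PhiPkg

/-!
# P093, block EN-ALG: the data for the quotients `Pn p m` of the dual Steenrod algebra

* `psiC_mem` : the coaction `F_p[b] → P ⊗ F_p[b]` is homogeneous;
* `inj_psi` : `F_p[b]` is an injective `Pn p m`-comodule (total integral);
* `aData p m : AData p (Pn p m)`.
-/

open TensorProduct Coalgebra

namespace Vale.Agent.P093.EN

open Vale.Agent.P093.N Vale.Agent.P093.N.Co Vale.Agent.P093.N.Phi Vale.Agent.P251.F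
  Vale.Agent.P251.Q Vale.Agent.P217

section comp

variable {B : Type} [CommRing B] {gB : ℤ → AddSubgroup B}

/-- coefficients of a composition of homogeneous series -/
theorem c_mul_mem (h1 : (1 : B) ∈ gB 0)
    (hm : ∀ i j a b, a ∈ gB i → b ∈ gB j → a * b ∈ gB (i + j)) {f g : InvSeries B}
    (hf : ∀ m : ℕ, f.c m ∈ gB m) (hg : ∀ m : ℕ, g.c m ∈ gB m) (m : ℕ) : (f * g).c m ∈ gB m := by
  have hA : IsMulGr (fun i => gB (-i)) :=
    { one_mem := by simpa using h1
      mul_mem := fun i j a b ha hb => by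
        have := hm _ _ a b ha hb
        rwa [show -i + -j = -(i + j) by ring] at this }
  have key : ∀ f : InvSeries B, (∀ m : ℕ, f.c m ∈ gB m) →
      HomPS (fun i => gB (-i)) 1 (f.val : MvPowerSeries Unit B) := by
    intro f hf e
    obtain ⟨n, rfl⟩ : ∃ n, e = Finsupp.single () n := ⟨e (), by ext; simp⟩
    have h2 : (Finsupp.single () n).degree = n := by simp [Finsupp.degree_single]
    rw [h2]
    change PowerSeries.coeff n f.val ∈ gB (-(1 - (n : ℤ)))
    rcases n with _ | n
    · rw [PowerSeries.coeff_zero_eq_constantCoeff_apply, f.cc]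
      exact zero_mem _
    · have h3 := hf n
      rw [InvSeries.c] at h3
      have h4 : -(1 - ((n + 1 : ℕ) : ℤ)) = n := by push_cast; ring
      rw [h4]
      exact h3
  have h3 := HomPS.subst hA (key f hf) (a := fun _ : Unit => g.val) g.hs.const
    (fun _ => key g hg) (Finsupp.single () (m + 1))
  have h2 : (Finsupp.single () (m + 1)).degree = m + 1 := by simp [Finsupp.degree_single]
  rw [h2] at h3
  have h4 : -(1 - ((m + 1 : ℕ) : ℤ)) = m := by push_cast; ring
  rw [← h4]
  exact h3

end comp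

section psi

variable (p : ℕ) [hp : Fact p.Prime] {P : Type} [CommRing P] [Algebra (ZMod p) P] {t : ℕ → P}

instance tgrMonoid {k A B : Type*} [Field k] [CommRing A] [Algebra k A] [CommRing B]
    [Algebra k B] (𝒜 : ℕ → Submodule k A) (ℬ : ℕ → Submodule k B) [SetLike.GradedMonoid 𝒜]
    [SetLike.GradedMonoid ℬ] : SetLike.GradedMonoid (tgr 𝒜 ℬ) where
  one_mem := one_mem_tgr (𝒜 := 𝒜) (ℬ := ℬ)
  mul_mem := by
    intro i j a b ha hb
    exact mul_mem_tgr ha hb

/-- The coaction on `F_p[b]` is homogeneous. -/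
theorem psiC_mem {𝒜 : ℕ → Submodule (ZMod p) P} [SetLike.GradedMonoid 𝒜]
    (ht : ∀ k : ℕ, t k ∈ 𝒜 (p ^ (k + 1) - 1)) {d : ℕ} {z : Fb p} (hz : z ∈ bgr p d) :
    psiC p t z ∈ tgr 𝒜 (bgr p) d := by
  have hX : ∀ m : ℕ, psiC p t (MvPolynomial.X m) ∈ tgr 𝒜 (bgr p) (m + 1) := by
    intro m
    rw [psiC, MvPolynomial.aeval_X]
    have h1 := c_mul_mem (gB := zgr (tgr 𝒜 (bgr p))) (SetLike.one_mem_graded (tgr 𝒜 (bgr p)))
      (fun i j a b ha hb => zgr_mul i j a b ha hb)
      (f := sR p P (bser p)) (g := tL p t (Fb p)) ?_ ?_ (m + 1)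
    · exact mem_zgr_natCast.1 h1
    · intro n
      rw [sR, InvSeries.c_map]
      rcases n with _ | n
      · rw [mem_strict.1 (bser_mem p), map_one]
        exact SetLike.one_mem_graded (tgr 𝒜 (bgr p))
      · rw [bser, c_succ_strictMk]
        exact tmul_mem_tgr (zero_add _) (SetLike.one_mem_graded 𝒜) (X_mem_bgr p n)
    · refine addSer_c_mem p (SetLike.one_mem_graded (tgr 𝒜 (bgr p))) fun k => ?_
      exact tmul_mem_tgr (add_zero _) (ht k) (SetLike.one_mem_graded (bgr p))
  have hmon : ∀ e : ℕ →₀ ℕ, psiC p t (MvPolynomial.monomial e 1) ∈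
      tgr 𝒜 (bgr p) (Finsupp.weight (fun m : ℕ => m + 1) e) := by
    intro e
    induction e using Finsupp.induction_linear with
    | zero =>
      rw [map_zero, ← MvPolynomial.C_apply, map_one, map_one]
      exact one_mem_tgr
    | add e f he hf =>
      rw [map_add, ← mul_one (1 : ZMod p), ← MvPolynomial.monomial_mul, map_mul]
      exact mul_mem_tgr he hf
    | single k n =>
      rw [← MvPolynomial.X_pow_eq_monomial, map_pow, Finsupp.weight_single]
      exact pow_mem_tgr (hX k) n
  rw [← MvPolynomial.support_sum_monomial_coeff z, map_sum]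
  refine Submodule.sum_mem _ fun e he => ?_
  have h1 : MvPolynomial.monomial e (MvPolynomial.coeff e z) =
      MvPolynomial.coeff e z • (MvPolynomial.monomial e (1 : ZMod p)) := by
    rw [MvPolynomial.smul_monomial, smul_eq_mul, mul_one]
  rw [h1, map_smul]
  refine Submodule.smul_mem _ _ ?_
  have h2 : Finsupp.weight (fun m : ℕ => m + 1) e = d := hz (MvPolynomial.mem_support_iff.1 he)
  rw [← h2]
  exact hmon e

end psi

end Vale.Agent.P093.EN
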