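import Vale.Agent.P251.M.CobDec
import Vale.Agent.P251.F.LazWt
import Vale.Agent.P093.EN.Mono
import Mathlib.RingTheory.MvPolynomial.WeightedHomogeneous

/-!
# P093, part N, block EN: the Hurewicz homomorphism of the Lazard ring modulo `p`

`hur p : Laz → 𝔽_p[b_0, b_1, …]` classifies the law obtained from the additive law by the strict
series `x + b_0 x² + b_1 x³ + …`; `h p n = hur p (Laz.x n)` is homogeneous of weight `n + 1`, and
is a unit times `b_n` plus a polynomial in the `b_k`, `k < n`, if `n + 2` is not a power of `p`.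
-/

open MvPolynomial

namespace Vale.Agent.P093.EN

open Vale.Agent.P251.F Vale.Agent.P217

section hur

variable (p : ℕ) [hp : Fact p.Prime]

/-- the polynomial ring `𝔽_p[b_0, b_1, …]` -/
abbrev Bp : Type := MvPolynomial ℕ (ZMod p)

/-- the Hurewicz homomorphism modulo `p` -/
noncomputable def hur : Laz →+* Bp p :=
  (MvPolynomial.map (Int.castRingHom (ZMod p))).comp Laz.toB

/-- `n + 2` is a power of `p` (then `b_n` is one of the `t_k`). -/
def IsT (n : ℕ) : Prop := ∃ k, n + 2 = p ^ k

/-- the Hurewicz image of the generator `Laz.x n` -/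
noncomputable def h (n : ℕ) : Bp p := hur p (Laz.x n)

theorem hur_univ : Laz.univ.map (hur p) =
    strictMk (MvPolynomial.X : ℕ → Bp p) • addLaw (Bp p) := by
  rw [hur, ← Law.map_map, Laz.toB, Laz.univ_map_lift, Laz.bLaw, InvSeries.map_smul,
    map_strictMk, map_addLaw]
  congr 2
  funext n
  exact MvPolynomial.map_X _ _

theorem h_eq (n : ℕ) : h p n = xC (strictMk (MvPolynomial.X : ℕ → Bp p) • addLaw (Bp p)) n := by
  rw [h, Laz.x, map_xC, hur_univ]

theorem h_sub_mem (n : ℕ) :
    h p n - MvPolynomial.C (dC (n + 2) : ZMod p) * MvPolynomial.X n ∈ below (ZMod p) n := by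
  have h1 := map_mem_below (Int.castRingHom (ZMod p)) (Laz.toB_x_sub_mem n)
  rw [map_sub, map_mul, MvPolynomial.map_X, MvPolynomial.map_C] at h1
  simpa [h, hur] using h1

omit hp in
theorem isUnit_dC [Fact p.Prime] {n : ℕ} (hn : ¬ IsT p n) : IsUnit (dC (n + 2) : ZMod p) := by
  have hp : p.Prime := Fact.out
  rw [isUnit_iff_ne_zero, Ne, ZMod.natCast_eq_zero_iff]
  intro hd
  apply hn
  by_cases h1 : IsPrimePow (n + 2)
  · obtain ⟨q, k, hq, hk, hqk⟩ := (isPrimePow_nat_iff _).1 h1
    rw [← hqk, dC_pow hq hk.ne'] at hd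
    rw [(Nat.prime_dvd_prime_iff_eq hp hq).1 hd]
    exact ⟨k, hqk.symm⟩
  · rw [dC_of_not h1, Nat.dvd_one] at hd
    exact absurd hd hp.one_lt.ne'

theorem lin_inv_smul_addLaw {B : Type*} [CommRing B] (u : Bˣ) :
    (InvSeries.lin u)⁻¹ • addLaw B = addLaw B := by
  classical
  apply Law.ext_ps
  ext d
  apply (Units.mul_right_inj u).1
  rw [coeff_lin_inv_smul, addLaw_ps, map_add]
  by_cases hd : d.degree = 1
  · rw [hd, pow_one]
  · have h0 : ∀ i : Fin 2, MvPowerSeries.coeff d (MvPowerSeries.X i : MvPowerSeries (Fin 2) B) =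
        0 := by
      intro i
      rw [MvPowerSeries.coeff_X, if_neg]
      rintro rfl
      exact hd (by simp)
    rw [h0, h0, add_zero, mul_zero, mul_zero]

/-- the additive law is invariant under rescaling -/
theorem lin_smul_addLaw {B : Type*} [CommRing B] (u : Bˣ) :
    InvSeries.lin u • addLaw B = addLaw B := by
  have h := lin_inv_smul_addLaw (B := B) u⁻¹
  rwa [map_inv, inv_inv] at h

/-- rescaling of the variables -/
theorem strictMk_scale {B : Type*} [CommRing B] (u : Bˣ) (b : ℕ → B) :
    strictMk (fun n => (u : B) ^ (n + 1) * b n) • addLaw B =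
      (InvSeries.lin u)⁻¹ • strictMk b • addLaw B := by
  have h1 : strictMk (fun n => (u : B) ^ (n + 1) * b n) =
      (InvSeries.lin u)⁻¹ * strictMk b * InvSeries.lin u := by
    apply InvSeries.ext_c
    intro n
    rw [InvSeries.c_mul_lin, ← map_inv, InvSeries.c_lin_mul]
    have h2 : (u : B) * ((u⁻¹ : Bˣ) : B) = 1 := Units.mul_inv u
    rcases n with _ | n
    · rw [c_zero_strictMk, c_zero_strictMk, zero_add, pow_one, mul_one, h2]
    · rw [c_succ_strictMk, c_succ_strictMk]
      calc (u : B) ^ (n + 1) * b n = (u : B) ^ (n + 1) * ((u : B) * ((u⁻¹ : Bˣ) : B)) * b n := by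
            rw [h2, mul_one]
        _ = _ := by ring
  rw [h1, mul_smul, mul_smul, lin_smul_addLaw]

/-- `𝔽_p[b] → 𝔽_p[b][T, T⁻¹]`, `b_n ↦ T^{n+1} b_n`. -/
noncomputable def scl : Bp p →+* LaurentPolynomial (Bp p) :=
  MvPolynomial.eval₂Hom (LaurentPolynomial.C.comp MvPolynomial.C)
    fun n => LaurentPolynomial.C (MvPolynomial.X n) * LaurentPolynomial.T ((n : ℤ) + 1)

theorem scl_h (n : ℕ) :
    scl p (h p n) = LaurentPolynomial.C (h p n) * LaurentPolynomial.T ((n : ℤ) + 1) := by
  have h1 : scl p (h p n) = xC (strictMk (fun m => ((unitT (Bp p) : (LaurentPolynomial (Bp p))ˣ) :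
      LaurentPolynomial (Bp p)) ^ (m + 1) * LaurentPolynomial.C (MvPolynomial.X m)) •
        addLaw (LaurentPolynomial (Bp p))) n := by
    rw [h_eq, map_xC, InvSeries.map_smul, map_strictMk, map_addLaw]
    congr 3
    funext m
    have h2 := unitT_zpow (Bp p) ((m : ℤ) + 1)
    have h3 : ((unitT (Bp p) ^ ((m : ℤ) + 1) : (LaurentPolynomial (Bp p))ˣ) :
        LaurentPolynomial (Bp p)) = ((unitT (Bp p) : (LaurentPolynomial (Bp p))ˣ) :
      LaurentPolynomial (Bp p)) ^ (m + 1) := by
      rw [← Units.val_pow_eq_pow_val]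
      congr 1
    rw [← h3, h2, mul_comm]
    simp [scl]
  rw [h1, strictMk_scale, xC_lin_inv_smul, h_eq, map_xC, InvSeries.map_smul, map_strictMk,
    map_addLaw]
  have h2 := unitT_zpow (Bp p) ((n : ℤ) + 1)
  have h3 : ((unitT (Bp p) ^ ((n : ℤ) + 1) : (LaurentPolynomial (Bp p))ˣ) :
      LaurentPolynomial (Bp p)) = ((unitT (Bp p) : (LaurentPolynomial (Bp p))ˣ) :
    LaurentPolynomial (Bp p)) ^ (n + 1) := by
    rw [← Units.val_pow_eq_pow_val]
    congr 1
  rw [← h3, h2, mul_comm]

/-- the weight of a monomial in the `b_n` -/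
noncomputable def wt : (ℕ →₀ ℕ) →+ ℕ := Finsupp.weight fun n => n + 1

theorem scl_monomial (d : ℕ →₀ ℕ) (r : ZMod p) :
    scl p (MvPolynomial.monomial d r) =
      LaurentPolynomial.C (MvPolynomial.monomial d r) * LaurentPolynomial.T (wt d : ℤ) := by
  rw [scl, MvPolynomial.eval₂Hom_monomial, MvPolynomial.monomial_eq, map_mul, wt,
    Finsupp.weight_apply, Finsupp.sum, Nat.cast_sum, Finsupp.prod, Finsupp.prod, map_prod,
    RingHom.comp_apply, mul_assoc]
  congr 1
  rw [Finset.prod_congr rfl fun i _ => mul_pow _ _ _, Finset.prod_mul_distrib]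
  congr 1
  · exact Finset.prod_congr rfl fun i _ => (map_pow _ _ _).symm
  · have h1 : ∀ s : Finset ℕ, ∏ i ∈ s, (LaurentPolynomial.T ((i : ℤ) + 1) ^ (d i) :
        LaurentPolynomial (Bp p)) =
          LaurentPolynomial.T (∑ i ∈ s, (((d i • (i + 1) : ℕ)) : ℤ)) := by
      intro s
      induction s using Finset.induction_on with
      | empty => simp
      | insert a s ha ih =>
        rw [Finset.prod_insert ha, ih, LaurentPolynomial.T_pow, ← LaurentPolynomial.T_add,
          Finset.sum_insert ha]
        rfl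
    exact h1 _

theorem coeff_coeff_scl (f : Bp p) (m : ℤ) (d : ℕ →₀ ℕ) :
    MvPolynomial.coeff d ((scl p f).coeff m) =
      if (wt d : ℤ) = m then MvPolynomial.coeff d f else 0 := by
  classical
  induction f using MvPolynomial.induction_on' with
  | monomial u a =>
    rw [scl_monomial, coeff_C_mul_T]
    split_ifs with h1 h2 h2
    · rfl
    · rw [MvPolynomial.coeff_monomial, if_neg]
      rintro rfl
      exact h2 h1
    · rw [MvPolynomial.coeff_zero, MvPolynomial.coeff_monomial, if_neg]
      rintro rfl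
      exact h1 h2
    · simp
  | add f g hf hg =>
    rw [map_add, AddMonoidAlgebra.coeff_add, Finsupp.add_apply, MvPolynomial.coeff_add, hf, hg,
      MvPolynomial.coeff_add]
    split_ifs <;> simp

/-- The Hurewicz images are homogeneous. -/
theorem h_homog (n : ℕ) : MvPolynomial.IsWeightedHomogeneous (fun n : ℕ => n + 1) (h p n)
    (n + 1) := by
  classical
  intro d hd
  by_contra hne
  apply hd
  have h1 := coeff_coeff_scl p (h p n) (wt d) d
  rw [if_pos rfl] at h1
  rw [← h1, scl_h, coeff_C_mul_T, if_neg, MvPolynomial.coeff_zero]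
  intro h2
  apply hne
  have h3 : (wt d : ℤ) = ((n + 1 : ℕ) : ℤ) := by rw [← h2]; push_cast; rfl
  exact_mod_cast h3

open Classical in
/-- the polynomial generators `h_n` (`n + 2` not a power of `p`) and `b_n` -/
noncomputable def gen (n : ℕ) : Bp p := if IsT p n then MvPolynomial.X n else h p n

theorem gen_homog (n : ℕ) : MvPolynomial.IsWeightedHomogeneous (fun n : ℕ => n + 1) (gen p n)
    (n + 1) := by
  unfold gen
  split_ifs
  · exact MvPolynomial.isWeightedHomogeneous_X _ _ _
  · exact h_homog p n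

/-- the change of generators -/
noncomputable def θ : Bp p →ₐ[ZMod p] Bp p := MvPolynomial.aeval (gen p)

open Classical in
theorem θ_bijective : Function.Bijective (θ p) := by
  refine bijective_of_triangular (c := fun n => if IsT p n then 1 else (dC (n + 2) : ZMod p))
    (fun n => ?_)
    (s := fun n => gen p n - MvPolynomial.C (if IsT p n then 1 else (dC (n + 2) : ZMod p)) *
      MvPolynomial.X n) (fun n => ?_) (fun n => ?_)
  · split_ifs with hn
    · exact isUnit_one
    · exact isUnit_dC p hn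
  · unfold gen
    split_ifs with hn
    · rw [map_one, one_mul, sub_self]
      exact Subalgebra.zero_mem _
    · exact h_sub_mem p n
  · rw [θ, MvPolynomial.aeval_X]
    ring

end hur

end Vale.Agent.P093.EN
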