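import Vale.Agent.P093.EN.Poly

/-!
# P093, part N, block EN: `V →₀ 𝔽_p[b]` as the free `𝔽_p[h]`-module on `V →₀ 𝔽_p[t]`
-/

open MvPolynomial

namespace Vale.Agent.P093.EN

open Vale.Agent.P251.F Vale.Agent.P217

/-- the indices of the `t_k` -/
abbrev τI (p : ℕ) : Type := {n : ℕ // IsT p n}

/-- the indices of the `h_n` -/
abbrev ιI (p : ℕ) : Type := {n : ℕ // ¬ IsT p n}

/-- the monomials in the `h_n` -/
abbrev Mo (p : ℕ) : Type := ιI p →₀ ℕ

/-- the monomials in the `t_k` -/
abbrev Mt (p : ℕ) : Type := τI p →₀ ℕ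

section subtype

variable {P : ℕ → Prop}

/-- extension by zero -/
noncomputable def ext0 (P : ℕ → Prop) : ({n // P n} →₀ ℕ) →+ (ℕ →₀ ℕ) :=
  Finsupp.mapDomain.addMonoidHom Subtype.val

theorem ext0_apply (c : {n // P n} →₀ ℕ) {n : ℕ} (h : P n) : ext0 P c n = c ⟨n, h⟩ :=
  Finsupp.mapDomain_apply Subtype.val_injective c ⟨n, h⟩

theorem ext0_apply_not (c : {n // P n} →₀ ℕ) {n : ℕ} (h : ¬ P n) : ext0 P c n = 0 := by
  refine Finsupp.mapDomain_of_notMem_range c n ?_
  rintro ⟨m, rfl⟩
  exact h m.2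

theorem wt_ext0 (c : {n // P n} →₀ ℕ) :
    wt (ext0 P c) = Finsupp.weight (fun i : {n // P n} => i.1 + 1) c := by
  rw [wt, Finsupp.weight_apply, Finsupp.weight_apply]
  exact Finsupp.sum_mapDomain_index (fun _ => zero_smul _ _) fun _ _ _ => add_smul _ _ _

end subtype

variable (p : ℕ)

/-- a monomial in the `b_n` is the product of a monomial in the `t_k` and one in the others -/
noncomputable def join : (Mo p × Mt p) ≃ (ℕ →₀ ℕ) where
  toFun x := ext0 _ x.1 + ext0 _ x.2
  invFun d := (d.subtypeDomain _, d.subtypeDomain _)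
  left_inv x := by
    obtain ⟨b, c⟩ := x
    refine Prod.ext ?_ ?_
    · ext n
      change (ext0 _ b + ext0 _ c) n.1 = b n
      rw [Finsupp.add_apply, ext0_apply b n.2, ext0_apply_not c n.2, add_zero]
    · ext n
      change (ext0 _ b + ext0 _ c) n.1 = c n
      rw [Finsupp.add_apply, ext0_apply c n.2, ext0_apply_not b (not_not.2 n.2), zero_add]
  right_inv d := by
    ext n
    change (ext0 _ (d.subtypeDomain _) + ext0 _ (d.subtypeDomain _)) n = _
    by_cases hn : IsT p n
    · rw [Finsupp.add_apply, ext0_apply_not (P := fun n => ¬ IsT p n) _ (not_not.2 hn),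
        ext0_apply _ hn, zero_add]
      rfl
    · rw [Finsupp.add_apply, ext0_apply (P := fun n => ¬ IsT p n) _ hn, ext0_apply_not _ hn,
        add_zero]
      rfl

/-- the weight (half of the degree) of a monomial in the `h_n` -/
noncomputable def dg : Mo p →+ ℕ := Finsupp.weight fun i => i.1 + 1

/-- the weight of a monomial in the `t_k` -/
noncomputable def dt : Mt p →+ ℕ := Finsupp.weight fun i => i.1 + 1

variable {p}

theorem join_add (a b : Mo p) (c : Mt p) : join p (a + b, c) = join p (a, 0) + join p (b, c) := by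
  change ext0 _ (a + b) + ext0 _ c = ext0 _ a + ext0 _ 0 + (ext0 _ b + ext0 _ c)
  rw [map_add, map_zero, add_zero, add_assoc]

theorem wt_join (b : Mo p) (c : Mt p) : wt (join p (b, c)) = dg p b + dt p c := by
  change wt (ext0 _ b + ext0 _ c) = _
  rw [map_add, wt_ext0, wt_ext0]
  rfl

theorem dg_eq_zero {a : Mo p} (h : dg p a = 0) : a = 0 := by
  rw [dg, Finsupp.weight_apply, Finsupp.sum, Finset.sum_eq_zero_iff] at h
  ext i
  by_contra hi
  have := h i (Finsupp.mem_support_iff.2 hi)
  simp at this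
  exact hi this

theorem le_dg (a : Mo p) (i : ιI p) : a i * (i.1 + 1) ≤ dg p a := by
  rw [dg, Finsupp.weight_apply, Finsupp.sum]
  by_cases hi : a i = 0
  · rw [hi, zero_mul]
    exact Nat.zero_le _
  · exact Finset.single_le_sum (f := fun i => a i • (i.1 + 1)) (fun _ _ => Nat.zero_le _)
      (Finsupp.mem_support_iff.2 hi)

/-- There are finitely many monomials in the `h_n` of weight less than `c`. -/
instance finite_lt (c : ℕ) : Finite {a : Mo p // dg p a < c} := by
  classical
  let g : {a : Mo p // dg p a < c} → (Fin c → Fin c) := fun a n =>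
    if h : IsT p n.1 then ⟨0, by omega⟩ else ⟨a.1 ⟨n.1, h⟩, by
      have := le_dg a.1 ⟨n.1, h⟩
      have h2 := a.2
      have h3 : a.1 ⟨n.1, h⟩ ≤ a.1 ⟨n.1, h⟩ * (n.1 + 1) := Nat.le_mul_of_pos_right _ (by omega)
      simp only at this
      omega⟩
  refine Finite.of_injective g ?_
  intro a b hab
  apply Subtype.ext
  ext i
  by_cases hi : i.1 < c
  · have h1 := congrFun hab ⟨i.1, hi⟩
    simp only [g, dif_neg i.2] at h1
    exact congrArg Fin.val h1
  · have h0 : ∀ a : {a : Mo p // dg p a < c}, a.1 i = 0 := by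
      intro a
      by_contra hne
      have h1 := le_dg a.1 i
      have h2 := a.2
      have h3 : i.1 + 1 ≤ a.1 i * (i.1 + 1) :=
        Nat.le_mul_of_pos_left _ (Nat.pos_of_ne_zero hne)
      omega
    rw [h0, h0]

end Vale.Agent.P093.EN
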